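import Mathlib

/-!
R259 (Nagata), theta block.  `RR k = k[z,1/z][[t]]`, `coef a x s` = coefficient of `z^x t^s`
(`0` if `s < 0`), `QP N B d a` = "`a ∈ M_d`".
-/

set_option autoImplicit false

namespace Crest.Agent.R259

open scoped LaurentPolynomial
open LaurentPolynomial

noncomputable section

variable {k : Type*} [Field k]

/-- The ring `k[z,z⁻¹][[t]]`. -/
abbrev RR (k : Type*) [Field k] := PowerSeries k[T;T⁻¹]

/-- the embedding of `O = k[[t]]`. -/
def emb : PowerSeries k →+* RR k := PowerSeries.map (LaurentPolynomial.C)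

/-- coefficient of `z^x t^s` -/
def coef (a : RR k) (x s : ℤ) : k :=
  if 0 ≤ s then (PowerSeries.coeff s.toNat a).coeff x else 0

theorem coef_of_neg (a : RR k) (x : ℤ) {s : ℤ} (hs : s < 0) : coef a x s = 0 := by
  simp [coef, not_le.mpr hs]

theorem coef_nat (a : RR k) (x : ℤ) (s : ℕ) :
    coef a x (s : ℤ) = (PowerSeries.coeff s a).coeff x := by
  simp [coef]

theorem coef_ext {a b : RR k} (h : ∀ x s, coef a x s = coef b x s) : a = b := by
  ext n x
  have := h x (n : ℤ)
  simpa [coef_nat] using this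

@[simp] theorem coef_zero (x s : ℤ) : coef (0 : RR k) x s = 0 := by
  simp [coef]

theorem coef_add (a b : RR k) (x s : ℤ) : coef (a + b) x s = coef a x s + coef b x s := by
  unfold coef
  split_ifs <;> simp

theorem coef_neg (a : RR k) (x s : ℤ) : coef (-a) x s = - coef a x s := by
  unfold coef
  split_ifs <;> simp


theorem coef_emb (u : PowerSeries k) (x s : ℤ) :
    coef (emb u) x s = if 0 ≤ s ∧ x = 0 then PowerSeries.coeff s.toNat u else 0 := by
  unfold coef emb
  by_cases hs : 0 ≤ s <;> simp [hs]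


/-- auxiliary embedding `u ↦ (u, v)` -/
def colEmb (v : ℕ) : ℤ ↪ ℤ × ℤ where
  toFun u := (u, (v : ℤ))
  inj' := by
    intro u u' h
    exact congrArg Prod.fst h

theorem colEmb_apply (v : ℕ) (u : ℤ) : colEmb v u = (u, (v : ℤ)) := rfl

open Classical in
/-- finite box containing the support of the convolution family -/
def convBox (a : RR k) (n : ℕ) : Finset (ℤ × ℤ) :=
  (Finset.range (n + 1)).biUnion fun v => (PowerSeries.coeff v a).coeff.support.map (colEmb v)

theorem conv_support_subset (a b : RR k) (x : ℤ) (n : ℕ) :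
    Function.support (fun p : ℤ × ℤ => coef a p.1 p.2 * coef b (x - p.1) ((n : ℤ) - p.2)) ⊆
      (convBox a n : Set (ℤ × ℤ)) := by
  classical
  rintro ⟨u, v⟩ h
  simp only [Function.mem_support, ne_eq, mul_eq_zero, not_or] at h
  obtain ⟨h1, h2⟩ := h
  have hv : 0 ≤ v := by
    by_contra hv
    exact h1 (coef_of_neg _ _ (not_le.mp hv))
  have hsv : 0 ≤ (n : ℤ) - v := by
    by_contra hv
    exact h2 (coef_of_neg _ _ (not_le.mp hv))
  simp only [convBox, Finset.coe_biUnion, Finset.mem_coe, Set.mem_iUnion, Finset.mem_map,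
    Finsupp.mem_support_iff, Finset.mem_range, colEmb_apply, Prod.mk.injEq]
  refine ⟨v.toNat, by omega, u, ?_, rfl, by omega⟩
  simpa [coef, hv] using h1

theorem coef_mul (a b : RR k) (x s : ℤ) :
    coef (a * b) x s = ∑ᶠ p : ℤ × ℤ, coef a p.1 p.2 * coef b (x - p.1) (s - p.2) := by
  classical
  by_cases hs : 0 ≤ s
  · obtain ⟨n, rfl⟩ := Int.eq_ofNat_of_zero_le hs
    rw [coef_nat, PowerSeries.coeff_mul, AddMonoidAlgebra.coeff_sum, Finsupp.finsetSum_apply]
    rw [finsum_eq_sum_of_support_subset _ (conv_support_subset a b x n), convBox,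
      Finset.sum_biUnion]
    · rw [Finset.Nat.sum_antidiagonal_eq_sum_range_succ_mk]
      refine Finset.sum_congr rfl fun v hv => ?_
      have hv' : v ≤ n := by simpa [Nat.lt_succ_iff] using hv
      rw [Finset.sum_map, AddMonoidAlgebra.coeff_mul_apply_left, Finsupp.sum]
      refine Finset.sum_congr rfl fun u _ => ?_
      rw [colEmb_apply]
      simp only
      rw [coef_nat, ← Nat.cast_sub hv', coef_nat, neg_add_eq_sub]
    · intro v _ w _ hvw
      rw [Function.onFun, Finset.disjoint_left]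
      rintro ⟨u, q⟩ h1 h2
      simp only [Finset.mem_map, colEmb_apply, Prod.mk.injEq] at h1 h2
      obtain ⟨_, _, _, h1⟩ := h1
      obtain ⟨_, _, _, h2⟩ := h2
      apply hvw
      have : (v : ℤ) = w := h1.trans h2.symm
      exact_mod_cast this
  · rw [coef_of_neg _ _ (not_le.mp hs)]
    symm
    apply finsum_eq_zero_of_forall_eq_zero
    rintro ⟨u, v⟩
    by_cases hv : 0 ≤ v
    · rw [coef_of_neg b _ (by simp; omega : s - v < 0), mul_zero]
    · rw [coef_of_neg a _ (not_le.mp hv), zero_mul]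

/-- `a ∈ M_d`. -/
def QP (N B d : ℤ) (a : RR k) : Prop :=
  ∀ x s : ℤ, coef a (x + 3 * d) (s + N * x + d * B) = coef a x s

section QPlemmas

variable {N B : ℤ}

theorem QP.zero (d : ℤ) : QP N B d (0 : RR k) := by
  intro x s; simp

theorem QP.add {d : ℤ} {a b : RR k} (ha : QP N B d a) (hb : QP N B d b) :
    QP N B d (a + b) := by
  intro x s; rw [coef_add, coef_add, ha x s, hb x s]

theorem QP.neg {d : ℤ} {a : RR k} (ha : QP N B d a) : QP N B d (-a) := by
  intro x s; rw [coef_neg, coef_neg, ha x s]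

theorem QP.sub {d : ℤ} {a b : RR k} (ha : QP N B d a) (hb : QP N B d b) :
    QP N B d (a - b) := by
  rw [sub_eq_add_neg]; exact ha.add hb.neg

theorem QP.sum {d : ℤ} {ι : Type*} {f : ι → RR k} {S : Finset ι}
    (h : ∀ i ∈ S, QP N B d (f i)) : QP N B d (∑ i ∈ S, f i) := by
  classical
  induction S using Finset.induction_on with
  | empty => simpa using QP.zero d
  | insert i S hi ih =>
    rw [Finset.sum_insert hi]
    exact (h i (Finset.mem_insert_self _ _)).add
      (ih fun j hj => h j (Finset.mem_insert_of_mem hj))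

theorem QP.emb (u : PowerSeries k) : QP N B 0 (emb u) := by
  intro x s
  rw [coef_emb, coef_emb]
  by_cases hx : x = 0 <;> simp [hx]

theorem QP.one : QP N B 0 (1 : RR k) := by
  have : (1 : RR k) = R259.emb 1 := by simp
  rw [this]; exact QP.emb 1

/-- the translation `T_d` of `ℤ²` -/
def tr (N B d : ℤ) : ℤ × ℤ ≃ ℤ × ℤ where
  toFun p := (p.1 + 3 * d, p.2 + N * p.1 + d * B)
  invFun p := (p.1 - 3 * d, p.2 - N * (p.1 - 3 * d) - d * B)
  left_inv p := by
    ext
    · simp
    · simp; ring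
  right_inv p := by
    ext
    · simp
    · simp; ring

theorem QP.mul {d e : ℤ} {a b : RR k} (ha : QP N B d a) (hb : QP N B e b) :
    QP N B (d + e) (a * b) := by
  intro x s
  rw [coef_mul, coef_mul, ← finsum_comp_equiv (tr N B d)]
  refine finsum_congr fun p => ?_
  simp only [tr, Equiv.coe_fn_mk]
  rw [ha p.1 p.2, ← hb (x - p.1) (s - p.2)]
  congr 2 <;> ring

theorem QP.smul {d : ℤ} {a : RR k} (u : PowerSeries k) (ha : QP N B d a) :
    QP N B d (R259.emb u * a) := by
  have := (QP.emb (N := N) (B := B) u).mul ha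
  rwa [zero_add] at this

theorem QP.pow {d : ℤ} {a : RR k} (ha : QP N B d a) (n : ℕ) :
    QP N B (n * d) (a ^ n) := by
  induction n with
  | zero => simpa using QP.one
  | succ n ih =>
    rw [pow_succ]
    have := ih.mul ha
    convert this using 1
    push_cast; ring

/-- WINDOW LEMMA. -/
theorem QP.window {i : ℤ} {c : RR k} (hc : QP N B (3 * i) c) {s0 : ℕ}
    (hs0 : ∀ s < s0, PowerSeries.coeff s c = 0) {x : ℤ}
    (hx : (PowerSeries.coeff s0 c).coeff x ≠ 0) :
    0 ≤ N * x + 3 * i * B ∧ N * (x - 9 * i) + 3 * i * B ≤ 0 := by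
  have key : ∀ y s : ℤ, coef c y s ≠ 0 → (s0 : ℤ) ≤ s := by
    intro y s h
    by_contra hlt
    push Not at hlt
    by_cases hs : 0 ≤ s
    · obtain ⟨n, rfl⟩ := Int.eq_ofNat_of_zero_le hs
      rw [coef_nat, hs0 n (by exact_mod_cast hlt)] at h
      simp at h
    · exact h (coef_of_neg _ _ (not_le.mp hs))
  have hx' : coef c x s0 ≠ 0 := by rwa [coef_nat]
  constructor
  · have h1 := hc x s0
    have h2 := key (x + 3 * (3 * i)) (s0 + N * x + 3 * i * B) (by rw [h1]; exact hx')
    linarith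
  · have h1 := hc (x - 9 * i) (s0 - N * (x - 9 * i) - 3 * i * B)
    have e1 : x - 9 * i + 3 * (3 * i) = x := by ring
    have e2 : (s0 : ℤ) - N * (x - 9 * i) - 3 * i * B + N * (x - 9 * i) + 3 * i * B = s0 := by ring
    rw [e1, e2] at h1
    have h2 := key (x - 9 * i) (s0 - N * (x - 9 * i) - 3 * i * B) (by rw [← h1]; exact hx')
    linarith

end QPlemmas

/-- integer form (W) of the window lemma, with `N = 6 n²`, `B = 2nrm - 1`. -/
theorem window_int {n r m i : ℕ} (hn : 1 ≤ n) (hi : i ≤ n) {c : RR k}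
    (hc : QP (6 * (n : ℤ) ^ 2) (2 * n * r * m - 1) (3 * i) c) {s0 : ℕ}
    (hs0 : ∀ s < s0, PowerSeries.coeff s c = 0) {x : ℤ}
    (hx : (PowerSeries.coeff s0 c).coeff x ≠ 0) :
    (i = 0 → x = 0) ∧ (1 ≤ i → -((r : ℤ) * m * i) < n * x) ∧
      (n : ℤ) * x ≤ (9 * n - r * m) * i := by
  obtain ⟨h1, h2⟩ := hc.window hs0 hx
  have hn' : (1 : ℤ) ≤ n := by exact_mod_cast hn
  have hi' : (i : ℤ) ≤ n := by exact_mod_cast hi
  have hi0 : (0 : ℤ) ≤ i := by positivity
  -- lower bound
  have g1 : (i : ℤ) ≤ 2 * n * (n * x + i * (r * m)) := by nlinarith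
  have g2 : 2 * n * (n * x - 9 * n * i + i * (r * m)) ≤ (i : ℤ) := by nlinarith
  have g3 : n * x - 9 * n * i + i * (r * m) ≤ (0 : ℤ) := by
    by_contra h
    push Not at h
    have : (1 : ℤ) ≤ n * x - 9 * n * i + i * (r * m) := h
    nlinarith
  refine ⟨?_, ?_, ?_⟩
  · intro h0
    subst h0
    simp only [Nat.cast_zero, zero_mul, add_zero, mul_zero, sub_zero] at g1 g3
    have hx1 : 0 ≤ (n : ℤ) * x := by
      by_contra h; push Not at h
      nlinarith
    have hx2 : (n : ℤ) * x = 0 := le_antisymm g3 hx1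
    rcases mul_eq_zero.mp hx2 with h | h
    · omega
    · exact h
  · intro h1i
    have h1i' : (1 : ℤ) ≤ i := by exact_mod_cast h1i
    have : 0 < n * x + i * ((r : ℤ) * m) := by
      by_contra h
      push Not at h
      nlinarith
    linarith
  · linarith

end

end Crest.Agent.R259
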