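import Mathlib
import Crest.Agent.R259.Theta
import Crest.Prelude.Def_VanishingOrder

-- ▼ part R259/Tor
section

/-!
R259 (Nagata): the toric lemma (helper980).
-/

set_option autoImplicit false

open Finset

namespace Crest.Agent.R259.Tor

variable {A : Type*} [CommRing A]

/-- the polynomial `∑_{i ≤ N} c_i X^{N-i}` -/
noncomputable def P (c : ℕ → A) (N : ℕ) : Polynomial A :=
  ∑ i ∈ range (N + 1), Polynomial.C (c i) * Polynomial.X ^ (N - i)

theorem P_succ (c : ℕ → A) (N : ℕ) :
    P c (N + 1) = Polynomial.X * P c N + Polynomial.C (c (N + 1)) := by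
  unfold P
  rw [sum_range_succ _ (N + 1), mul_sum]
  congr 1
  · refine sum_congr rfl fun i hi => ?_
    rw [mem_range] at hi
    have : N + 1 - i = (N - i) + 1 := by omega
    rw [this, pow_succ]
    ring
  · simp

/-- partial sums -/
def S (c : ℕ → A) (i : ℕ) : A := ∑ l ∈ range (i + 1), c l

theorem P_eq (c : ℕ → A) (N : ℕ) :
    P c (N + 1) = (Polynomial.X - 1) * P (S c) N + Polynomial.C (S c (N + 1)) := by
  induction N with
  | zero =>
    rw [P_succ]
    simp [P, S, sum_range_succ]
    ring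
  | succ N ih =>
    rw [P_succ, ih, P_succ (S c) N]
    have : S c (N + 1 + 1) = S c (N + 1) + c (N + 1 + 1) := by
      unfold S; rw [sum_range_succ]
    rw [this, Polynomial.C_add]
    ring

theorem eval_one_P (c : ℕ → A) (N : ℕ) : (P c N).eval 1 = S c N := by
  unfold P S
  simp [Polynomial.eval_finsetSum]

theorem coeff_P (c : ℕ → A) {N i : ℕ} (hi : i ≤ N) : (P c N).coeff (N - i) = c i := by
  unfold P
  rw [Polynomial.finsetSum_coeff, sum_eq_single i]
  · simp
  · intro l hl hli
    rw [mem_range] at hl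
    rw [Polynomial.coeff_C_mul, Polynomial.coeff_X_pow, if_neg, mul_zero]
    omega
  · intro h
    rw [mem_range] at h
    omega

theorem taylor_mul_X_sub_one_pow (p : Polynomial A) (j : ℕ) :
    (Polynomial.taylor 1 ((Polynomial.X - 1) ^ j * p)).coeff j = p.eval 1 := by
  have h1 : Polynomial.taylor (1:A) (Polynomial.X - 1 : Polynomial A) = Polynomial.X := by
    simp [Polynomial.taylor_X]
  rw [Polynomial.taylor_mul, Polynomial.taylor_pow, h1]
  have := Polynomial.coeff_X_pow_mul (Polynomial.taylor 1 p) j 0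
  rw [zero_add] at this
  rw [this, Polynomial.taylor_coeff_zero]

/-! ### width of multiples of `∏ (T - z_a)^e` -/

section width

open Polynomial

variable {k : Type*} [Field k]

theorem coeff_mul_T (f : LaurentPolynomial k) (n x : ℤ) :
    (f * LaurentPolynomial.T n).coeff x = f.coeff (x - n) := by
  unfold LaurentPolynomial.T
  rw [AddMonoidAlgebra.coeff_mul_single_apply, mul_one, sub_eq_add_neg]

theorem coeff_toLaurent_nat (f : k[X]) (a : ℕ) : (toLaurent f).coeff (a : ℤ) = f.coeff a := by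
  rw [LaurentPolynomial.coeff_toLaurent]
  exact Finsupp.mapDomain_apply Nat.cast_injective _ _

theorem toLaurent_X_sub_C (z : k) :
    toLaurent (X - C z) = (LaurentPolynomial.T 1 - LaurentPolynomial.C z : LaurentPolynomial k) := by
  rw [map_sub, toLaurent_X, toLaurent_C]

/-- divisibility by `(T - z)^e`, `z ≠ 0`, in terms of ordinary polynomials -/
theorem dvd_of_dvd_laurent {z : k} (hz : z ≠ 0) {e N : ℕ} {σ : LaurentPolynomial k} {f : k[X]}
    (hf : toLaurent f = σ * LaurentPolynomial.T N)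
    (hd : (LaurentPolynomial.T 1 - LaurentPolynomial.C z : LaurentPolynomial k) ^ e ∣ σ) :
    (X - C z) ^ e ∣ f := by
  obtain ⟨g, hg⟩ := hd
  obtain ⟨M, g', hg'⟩ := LaurentPolynomial.exists_T_pow g
  have h1 : toLaurent (f * X ^ M) = toLaurent ((X - C z) ^ e * (g' * X ^ N)) := by
    simp only [map_mul, map_pow, toLaurent_X_sub_C, toLaurent_X, LaurentPolynomial.T_pow, mul_one,
      hf, hg', hg]
    ring
  have h2 := toLaurent_injective h1
  have hcop : IsCoprime ((X - C z) ^ e : k[X]) (X ^ M) := by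
    apply IsCoprime.pow
    have h3 : IsCoprime (X - C z : k[X]) (X - C 0) :=
      isCoprime_X_sub_C_of_isUnit_sub (by simpa using hz)
    simpa using h3
  exact hcop.dvd_of_dvd_mul_right (Dvd.intro _ h2.symm)

theorem width {r e : ℕ} (z : Fin r → k) (hz : Function.Injective z) (hz0 : ∀ a, z a ≠ 0)
    {σ : LaurentPolynomial k} (hσ : σ ≠ 0)
    (hd : ∀ a, (LaurentPolynomial.T 1 - LaurentPolynomial.C (z a) : LaurentPolynomial k) ^ e ∣ σ) :
    ∃ x y : ℤ, σ.coeff x ≠ 0 ∧ σ.coeff y ≠ 0 ∧ (r * e : ℤ) ≤ x - y := by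
  obtain ⟨N, f, hf⟩ := LaurentPolynomial.exists_T_pow σ
  have hf0 : f ≠ 0 := by
    rintro rfl
    rw [map_zero] at hf
    have h1 : σ * LaurentPolynomial.T N * LaurentPolynomial.T (-N) = 0 := by rw [← hf, zero_mul]
    rw [LaurentPolynomial.mul_T_assoc, add_neg_cancel, LaurentPolynomial.T_zero, mul_one] at h1
    exact hσ h1
  have hdf : ∀ a, (X - C (z a)) ^ e ∣ f := fun a => dvd_of_dvd_laurent (hz0 a) hf (hd a)
  set d := f.natTrailingDegree with hd'
  have hXd : (X ^ d : k[X]) ∣ f := X_pow_dvd_iff.2 fun j hj =>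
    coeff_eq_zero_of_lt_natTrailingDegree hj
  have hprod : ∏ a : Fin r, (X - C (z a)) ^ e ∣ f := by
    refine Finset.prod_dvd_of_coprime ?_ fun a _ => hdf a
    intro a _ b _ hab
    apply IsCoprime.pow
    exact isCoprime_X_sub_C_of_isUnit_sub
      (sub_ne_zero.2 (fun h => hab (hz h))).isUnit
  have hcop : IsCoprime (∏ a : Fin r, (X - C (z a)) ^ e) (X ^ d : k[X]) := by
    refine IsCoprime.prod_left fun a _ => ?_
    apply IsCoprime.pow
    have h3 : IsCoprime (X - C (z a) : k[X]) (X - C 0) :=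
      isCoprime_X_sub_C_of_isUnit_sub (by simpa using hz0 a)
    simpa using h3
  have hall := hcop.mul_dvd hprod hXd
  have hdeg := natDegree_le_of_dvd hall hf0
  have hm1 : (∏ a : Fin r, (X - C (z a)) ^ e).Monic :=
    monic_prod_of_monic _ _ fun a _ => (monic_X_sub_C _).pow _
  rw [hm1.natDegree_mul (monic_X_pow d), natDegree_X_pow,
    natDegree_prod_of_monic _ _ fun a _ => (monic_X_sub_C _).pow _] at hdeg
  simp only [natDegree_pow, natDegree_X_sub_C, mul_one, Finset.sum_const, Finset.card_univ,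
    Fintype.card_fin, smul_eq_mul] at hdeg
  refine ⟨(f.natDegree : ℤ) - N, (d : ℤ) - N, ?_, ?_, ?_⟩
  · rw [← coeff_mul_T, ← hf, coeff_toLaurent_nat]
    exact leadingCoeff_ne_zero.2 hf0
  · rw [← coeff_mul_T, ← hf, coeff_toLaurent_nat]
    exact trailingCoeff_nonzero_iff_nonzero.2 hf0
  · have : (r * e + d : ℤ) ≤ f.natDegree := by exact_mod_cast hdeg
    linarith

end width

/-! ### the toric lemma -/

section toric

variable {k : Type*} [Field k]

/-- the window at stage `j` -/
def Win (r n m j : ℕ) (c : ℕ → LaurentPolynomial k) (N : ℕ) : Prop :=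
  ∀ i ≤ N, ∀ x : ℤ, (c i).coeff x ≠ 0 →
    (-((r : ℤ) * m * i) < n * x ∨ (i = 0 ∧ 0 ≤ x)) ∧ (n : ℤ) * x ≤ (9 * n - r * m) * (i + j)

theorem coeff_S {c : ℕ → LaurentPolynomial k} {N : ℕ} {x : ℤ} (h : (S c N).coeff x ≠ 0) :
    ∃ i ≤ N, (c i).coeff x ≠ 0 := by
  unfold S at h
  by_contra hcon
  push Not at hcon
  apply h
  have : (∑ l ∈ range (N + 1), c l).coeff x = ∑ l ∈ range (N + 1), (c l).coeff x := by
    induction (range (N + 1)) using Finset.induction_on with
    | empty => simp
    | insert a s ha ih => rw [Finset.sum_insert ha, Finset.sum_insert ha]; simp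
  rw [this]
  exact Finset.sum_eq_zero fun l hl => hcon l (by rw [mem_range] at hl; omega)

variable {r n m : ℕ}

theorem rm_gt (hr : 10 ≤ r) (hm : 1 ≤ m) (hn : 1 ≤ n) (h : 9 * n ^ 2 ≤ r * m ^ 2) :
    (9 * n : ℤ) < r * m := by
  have h' : (9 * n ^ 2 : ℤ) ≤ r * m ^ 2 := by exact_mod_cast h
  have hr' : (10 : ℤ) ≤ r := by exact_mod_cast hr
  have hm' : (1 : ℤ) ≤ m := by exact_mod_cast hm
  have hn' : (1 : ℤ) ≤ n := by exact_mod_cast hn
  by_contra hcon
  push Not at hcon
  -- (r m)^2 ≤ 81 n^2 ≤ 9 r m^2 < (r m)^2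
  have h1 : ((r : ℤ) * m) ^ 2 ≤ (9 * n) ^ 2 := by
    apply pow_le_pow_left₀ (by positivity) hcon
  nlinarith [mul_pos (show (0:ℤ) < r by linarith) (pow_pos (show (0:ℤ) < m by linarith) 2)]

/-- bounds of a point of the stage `j` window -/
theorem win_bounds (hr : 10 ≤ r) (hm : 1 ≤ m) (hn : 1 ≤ n) (h : 9 * n ^ 2 ≤ r * m ^ 2)
    {c : ℕ → LaurentPolynomial k} {j : ℕ} (hj : 1 ≤ j) (hjn : j ≤ n) (hw : Win r n m j c (n - j))
    {i : ℕ} (hi : i ≤ n - j) {x : ℤ} (hx : (c i).coeff x ≠ 0) :
    (9 * (n:ℤ) ^ 2 * x < - ((r * m - 9 * n) * j * (r * m))) ∧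
      (-(9 * n * (r * m) * (n - j) : ℤ) < 9 * (n:ℤ) ^ 2 * x) := by
  have hD := rm_gt hr hm hn h
  obtain ⟨h1, h2⟩ := hw i hi x hx
  have hj' : (1 : ℤ) ≤ j := by exact_mod_cast hj
  have hn' : (1 : ℤ) ≤ n := by exact_mod_cast hn
  have hi0 : (0 : ℤ) ≤ i := Int.natCast_nonneg i
  have hi' : (i : ℤ) ≤ n - j := by
    have : i + j ≤ n := by omega
    have : (i : ℤ) + j ≤ n := by exact_mod_cast this
    linarith
  set D : ℤ := r * m - 9 * n with hDdef
  have hDpos : 0 < D := by rw [hDdef]; linarith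
  have hrm : (r : ℤ) * m = D + 9 * n := by rw [hDdef]; ring
  have h2' : (n : ℤ) * x ≤ -(D * (i + j)) := by
    have : ((9:ℤ) * n - r * m) = -D := by rw [hDdef]; ring
    rw [this] at h2
    linarith
  have h1' : -((D + 9 * n) * i) < (n : ℤ) * x := by
    rcases h1 with h1 | ⟨h1, h3⟩
    · rw [hrm] at h1; linarith
    · exfalso
      have h4 : (0 : ℤ) ≤ n * x := by positivity
      have h5 : 0 < D * (i + j) := by positivity
      linarith
  -- D j < 9 n i
  have h3 : D * j < 9 * n * i := by nlinarith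
  rw [hrm]
  constructor
  · -- 9 n² x ≤ -9 n D (i + j) < - D (D j + 9 n j)
    have h4 : 9 * (n:ℤ) ^ 2 * x ≤ -(9 * n * (D * (i + j))) := by
      have := mul_le_mul_of_nonneg_left h2' (show (0:ℤ) ≤ 9 * n by positivity)
      nlinarith
    have h5 : D * (D * j) < D * (9 * n * i) := mul_lt_mul_of_pos_left h3 hDpos
    nlinarith
  · have h6 : (9:ℤ) * n * (-((D + 9 * n) * i)) < 9 * n * (n * x) :=
      mul_lt_mul_of_pos_left h1' (by positivity)
    have h7 : (9:ℤ) * n * ((D + 9 * n) * i) ≤ 9 * n * ((D + 9 * n) * (n - j)) := by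
      apply mul_le_mul_of_nonneg_left _ (by positivity)
      exact mul_le_mul_of_nonneg_left hi' (by positivity)
    nlinarith

/-- the partial sums vanish at every stage -/
theorem sum_eq_zero_of_win (hr : 10 ≤ r) (hm : 1 ≤ m) (hn : 1 ≤ n) (h : 9 * n ^ 2 ≤ r * m ^ 2)
    (z : Fin r → k) (hz : Function.Injective z) (hz0 : ∀ a, z a ≠ 0)
    {c : ℕ → LaurentPolynomial k} {j : ℕ} (hjm : j < m) (hjn : j ≤ n)
    (hw : Win r n m j c (n - j))
    (hd : ∀ a, (LaurentPolynomial.T 1 - LaurentPolynomial.C (z a) : LaurentPolynomial k) ^ (m - j)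
      ∣ S c (n - j)) : S c (n - j) = 0 := by
  by_contra hne
  obtain ⟨x, y, hx, hy, hxy⟩ := width z hz hz0 hne hd
  obtain ⟨i, hi, hxi⟩ := coeff_S hx
  obtain ⟨i', hi', hyi⟩ := coeff_S hy
  have hD := rm_gt hr hm hn h
  have hn' : (1 : ℤ) ≤ n := by exact_mod_cast hn
  have hr' : (10 : ℤ) ≤ r := by exact_mod_cast hr
  have hmj : ((m - j : ℕ) : ℤ) = m - j := by
    rw [Nat.cast_sub hjm.le]
  rw [hmj] at hxy
  have h' : (9 * n ^ 2 : ℤ) ≤ r * m ^ 2 := by exact_mod_cast h
  rcases Nat.eq_zero_or_pos j with rfl | hj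
  · -- stage 0
    obtain ⟨-, hx2⟩ := hw i hi x hxi
    obtain ⟨hy1, -⟩ := hw i' hi' y hyi
    simp only [Nat.cast_zero, add_zero, sub_zero] at hx2 hxy
    have hi0 : (0 : ℤ) ≤ i := Int.natCast_nonneg i
    have hx3 : (n : ℤ) * x ≤ 0 := by nlinarith
    have hi'n : (i' : ℤ) ≤ n := by
      have : i' ≤ n := by omega
      exact_mod_cast this
    have hrm0 : (0 : ℤ) < r * m := by linarith
    have hy3 : -((r : ℤ) * m * n) < n * y := by
      rcases hy1 with h1 | ⟨h1, h2⟩
      · have : (r : ℤ) * m * i' ≤ r * m * n := mul_le_mul_of_nonneg_left hi'n hrm0.le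
        linarith
      · have h3 : (0 : ℤ) ≤ n * y := by positivity
        have h4 : (0 : ℤ) < r * m * n := by positivity
        linarith
    have h5 : (n : ℤ) * (r * m) ≤ n * (x - y) := mul_le_mul_of_nonneg_left hxy (by linarith)
    nlinarith
  · obtain ⟨b1, -⟩ := win_bounds hr hm hn h hj hjn hw hi hxi
    obtain ⟨-, b2⟩ := win_bounds hr hm hn h hj hjn hw hi' hyi
    have hj' : (1 : ℤ) ≤ j := by exact_mod_cast hj
    have h5 : 9 * (n:ℤ) ^ 2 * (r * (m - j)) ≤ 9 * (n:ℤ) ^ 2 * (x - y) :=
      mul_le_mul_of_nonneg_left hxy (by positivity)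
    -- 9 n² (x - y) < r m (9 n² - r m j)
    have h6 : 9 * (n:ℤ) ^ 2 * (x - y) < (r * m) * (9 * n ^ 2 - r * m * j) := by nlinarith
    have h7 : (r * j : ℤ) * (9 * n ^ 2) ≤ (r * j : ℤ) * (r * m ^ 2) :=
      mul_le_mul_of_nonneg_left h' (by positivity)
    nlinarith

/-- one step of the induction -/
theorem win_step (hr : 10 ≤ r) (hm : 1 ≤ m) (hn : 1 ≤ n) (h : 9 * n ^ 2 ≤ r * m ^ 2)
    {c : ℕ → LaurentPolynomial k} {j N : ℕ} (hw : Win r n m j c (N + 1))
    (h0 : S c (N + 1) = 0) : Win r n m (j + 1) (S c) N := by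
  have hD := rm_gt hr hm hn h
  intro i hi x hx
  have hrm0 : (0 : ℤ) < r * m := by
    have hn' : (1 : ℤ) ≤ n := by exact_mod_cast hn
    linarith
  constructor
  · obtain ⟨l, hl, hxl⟩ := coeff_S hx
    obtain ⟨h1, -⟩ := hw l (by omega) x hxl
    rcases h1 with h1 | ⟨h1, h2⟩
    · left
      have : (r : ℤ) * m * l ≤ r * m * i :=
        mul_le_mul_of_nonneg_left (by exact_mod_cast hl) hrm0.le
      linarith
    · rcases Nat.eq_zero_or_pos i with hi0 | hi0
      · exact Or.inr ⟨hi0, h2⟩
      · left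
        have h3 : (0 : ℤ) ≤ n * x := by positivity
        have hi0' : (0 : ℤ) < i := by exact_mod_cast hi0
        have : (0 : ℤ) < r * m * i := mul_pos hrm0 hi0'
        linarith
  · -- S c i = - ∑_{l > i} c l
    have h3 : S c i = - ∑ l ∈ Finset.Ico (i + 1) (N + 2), c l := by
      have h4 : S c i + ∑ l ∈ Finset.Ico (i + 1) (N + 2), c l = S c (N + 1) := by
        unfold S
        rw [Finset.sum_range_add_sum_Ico _ (by omega)]
      rw [h0] at h4
      exact eq_neg_of_add_eq_zero_left h4
    have h5 : ∃ l ∈ Finset.Ico (i + 1) (N + 2), (c l).coeff x ≠ 0 := by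
      by_contra hcon
      push Not at hcon
      apply hx
      have h6 : (∑ l ∈ Finset.Ico (i + 1) (N + 2), c l).coeff x
          = ∑ l ∈ Finset.Ico (i + 1) (N + 2), (c l).coeff x := by
        induction (Finset.Ico (i + 1) (N + 2)) using Finset.induction_on with
        | empty => simp
        | insert a s ha ih => rw [Finset.sum_insert ha, Finset.sum_insert ha]; simp
      rw [h3]
      have h7 : (-∑ l ∈ Finset.Ico (i + 1) (N + 2), c l).coeff x
          = - (∑ l ∈ Finset.Ico (i + 1) (N + 2), c l).coeff x := by simp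
      rw [h7, h6, Finset.sum_eq_zero hcon, neg_zero]
    obtain ⟨l, hl, hxl⟩ := h5
    rw [Finset.mem_Ico] at hl
    obtain ⟨-, h2⟩ := hw l (by omega) x hxl
    refine h2.trans ?_
    have h8 : (i : ℤ) + 1 ≤ l := by exact_mod_cast hl.1
    push_cast
    nlinarith

/-- **Toric lemma.** -/
theorem toric (hr : 10 ≤ r) (hm : 1 ≤ m) (hn : 1 ≤ n) (h : 9 * n ^ 2 ≤ r * m ^ 2)
    (z : Fin r → k) (hz : Function.Injective z) (hz0 : ∀ a, z a ≠ 0)
    (c : ℕ → LaurentPolynomial k)
    (hlo : ∀ i ≤ n, ∀ x : ℤ, (c i).coeff x ≠ 0 → -((r : ℤ) * m * i) < n * x ∨ (i = 0 ∧ 0 ≤ x))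
    (hhi : ∀ i ≤ n, ∀ x : ℤ, (c i).coeff x ≠ 0 → (n : ℤ) * x ≤ (9 * n - r * m) * i)
    (hdiv : ∀ l < m, ∀ a, (LaurentPolynomial.T 1 - LaurentPolynomial.C (z a) :
      LaurentPolynomial k) ^ (m - l) ∣ (Polynomial.taylor 1 (P c n)).coeff l) :
    ∀ i ≤ n, c i = 0 := by
  -- the induction
  have key : ∀ j, j ≤ m → j ≤ n → ∃ c' : ℕ → LaurentPolynomial k,
      P c n = (Polynomial.X - 1) ^ j * P c' (n - j) ∧ Win r n m j c' (n - j) := by
    intro j
    induction j with
    | zero =>
      intro _ _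
      refine ⟨c, by simp, fun i hi x hx => ⟨hlo i (by omega) x hx, ?_⟩⟩
      have := hhi i (by omega) x hx
      simpa using this
    | succ j ih =>
      intro hjm hjn
      obtain ⟨c', hc', hw⟩ := ih (by omega) (by omega)
      have hσ : S c' (n - j) = 0 := by
        refine sum_eq_zero_of_win hr hm hn h z hz hz0 (by omega) (by omega) hw fun a => ?_
        have := hdiv j (by omega) a
        rw [hc', taylor_mul_X_sub_one_pow, eval_one_P] at this
        exact this
      have hN : n - j = (n - (j + 1)) + 1 := by omega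
      rw [hN] at hc' hw hσ
      refine ⟨S c', ?_, win_step hr hm hn h hw hσ⟩
      rw [hc', P_eq, hσ, Polynomial.C_0, add_zero, pow_succ]
      ring
  -- the end
  have hP : P c n = 0 := by
    rcases le_total m n with hmn | hmn
    · obtain ⟨c', hc', hw⟩ := key m le_rfl hmn
      have h0 : ∀ i ≤ n - m, c' i = 0 := by
        intro i hi
        by_contra hne
        obtain ⟨x, hx⟩ : ∃ x, (c' i).coeff x ≠ 0 := by
          by_contra hcon
          push Not at hcon
          exact hne (LaurentPolynomial.ext fun a => by simpa using hcon a)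
        obtain ⟨b1, b2⟩ := win_bounds hr hm hn h hm hmn hw hi hx
        have hD := rm_gt hr hm hn h
        have h' : (9 * n ^ 2 : ℤ) ≤ r * m ^ 2 := by exact_mod_cast h
        have hrm0 : (0 : ℤ) < r * m := by
          have hn' : (1 : ℤ) ≤ n := by exact_mod_cast hn
          linarith
        have h9 : (r * m : ℤ) * ((r * m - 9 * n) * m) < (r * m) * (9 * n * (n - m)) := by nlinarith
        have h10 := lt_of_mul_lt_mul_left h9 hrm0.le
        nlinarith
      rw [hc']
      have : P c' (n - m) = 0 := by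
        unfold P
        refine sum_eq_zero fun i hi => ?_
        rw [mem_range] at hi
        rw [h0 i (by omega)]
        simp
      rw [this, mul_zero]
    · obtain ⟨c', hc', hw⟩ := key n hmn le_rfl
      have h0 : c' 0 = 0 := by
        by_contra hne
        obtain ⟨x, hx⟩ : ∃ x, (c' 0).coeff x ≠ 0 := by
          by_contra hcon
          push Not at hcon
          exact hne (LaurentPolynomial.ext fun a => by simpa using hcon a)
        obtain ⟨h1, h2⟩ := hw 0 (by omega) x hx
        have hD := rm_gt hr hm hn h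
        have hn' : (1 : ℤ) ≤ n := by exact_mod_cast hn
        have h3 : (n : ℤ) * x < 0 := by
          push_cast at h2
          nlinarith
        rcases h1 with h1 | ⟨-, h1⟩
        · push_cast at h1
          linarith
        · have : (0 : ℤ) ≤ n * x := by positivity
          linarith
      rw [hc']
      have : P c' (n - n) = 0 := by
        unfold P
        rw [Nat.sub_self, sum_range_one, h0]
        simp
      rw [this, mul_zero]
  intro i hi
  rw [← coeff_P c hi, hP]
  simp

end toric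

end Crest.Agent.R259.Tor
end

-- ▼ part R259/AsmEnd
section

/-!
R259 (Nagata), end of the assembly: from the divisibility of the `(v-1)`-adic coefficients over
`k[z,1/z][[t]]` to the `t^s`-coefficients, window lemma and toric lemma.
-/

set_option autoImplicit false

open Polynomial

namespace Crest.Agent.R259.Asm

section Taylor

variable {R : Type*} [CommRing R]

/-- The polynomial `∑_{i ≤ n} c_i X^(n-i)` (= `Tor.P c n`). -/
theorem taylor_P_coeff (n : ℕ) (c : ℕ → R) (l : ℕ) :
    (taylor 1 (Tor.P c n)).coeff l =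
      ∑ i ∈ Finset.range (n + 1), c i * ((n - i).choose l : R) := by
  rw [Tor.P, map_sum, finsetSum_coeff]
  refine Finset.sum_congr rfl fun i _ => ?_
  rw [taylor_mul, taylor_C, coeff_C_mul, taylor_coeff]
  congr 1
  rw [← monomial_one_right_eq_X_pow, hasseDeriv_monomial]
  simp

theorem taylor_P_eq (n : ℕ) (c : ℕ → R) :
    taylor 1 (Tor.P c n) = ∑ i ∈ Finset.range (n + 1), C (c i) * (1 + X) ^ (n - i) := by
  rw [Tor.P, map_sum]
  refine Finset.sum_congr rfl fun i _ => ?_
  rw [taylor_mul, taylor_C, taylor_pow, taylor_X, C_1, add_comm X 1]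

end Taylor

section Coeff

variable {Λ : Type*} [CommRing Λ]

theorem coeff_dvd_of_C_pow_dvd (a : Λ) (e : ℕ) (f : PowerSeries Λ)
    (h : (PowerSeries.C a) ^ e ∣ f) (s : ℕ) : a ^ e ∣ PowerSeries.coeff s f := by
  obtain ⟨q, rfl⟩ := h
  rw [← map_pow, PowerSeries.coeff_C_mul]
  exact dvd_mul_right _ _

/-- the `t^s`-coefficient of the `(v-1)`-adic coefficients. -/
theorem coeff_taylor_P (n : ℕ) (c : ℕ → PowerSeries Λ) (l s : ℕ) :
    PowerSeries.coeff s ((taylor 1 (Tor.P c n)).coeff l) =
      (taylor 1 (Tor.P (fun i => PowerSeries.coeff s (c i)) n)).coeff l := by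
  rw [taylor_P_coeff, taylor_P_coeff, map_sum]
  refine Finset.sum_congr rfl fun i _ => ?_
  have : (((n - i).choose l : ℕ) : PowerSeries Λ) =
      PowerSeries.C (((n - i).choose l : ℕ) : Λ) := by simp
  rw [this, PowerSeries.coeff_mul_C]

end Coeff

section End

open scoped LaurentPolynomial in
/-- **End of the assembly.** -/
theorem asm_end {k : Type*} [Field k] {r n m : ℕ} (hr : 10 ≤ r) (hn : 1 ≤ n) (hm : 1 ≤ m)
    (h : 9 * n ^ 2 ≤ r * m ^ 2) (z : Fin r → k) (hz : Function.Injective z) (hz0 : ∀ j, z j ≠ 0)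
    (c : ℕ → RR k)
    (hQP : ∀ i ≤ n, QP (6 * (n : ℤ) ^ 2) (2 * n * r * m - 1) (3 * i) (c i))
    (hdvd : ∀ j l, (PowerSeries.C (LaurentPolynomial.T 1 - LaurentPolynomial.C (z j)) : RR k)
        ^ (m - l) ∣
      (∑ i ∈ Finset.range (n + 1), C (c i) * (1 + X) ^ (n - i) : (RR k)[X]).coeff l) :
    ∀ i ≤ n, c i = 0 := by
  have key : ∀ s : ℕ, ∀ i ≤ n, PowerSeries.coeff s (c i) = 0 := by
    intro s
    induction s using Nat.strong_induction_on with
    | _ s ih =>
      have win : ∀ i ≤ n, ∀ x : ℤ, (PowerSeries.coeff s (c i)).coeff x ≠ 0 →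
          (i = 0 → x = 0) ∧ (1 ≤ i → -((r : ℤ) * m * i) < n * x) ∧
            (n : ℤ) * x ≤ (9 * n - r * m) * i := fun i hi x hx =>
        window_int hn hi (hQP i hi) (fun s' hs' => ih s' hs' i hi) hx
      refine Tor.toric hr hm hn h z hz hz0 (fun i => PowerSeries.coeff s (c i)) ?_ ?_ ?_
      · intro i hi x hx
        obtain ⟨h1, h2, -⟩ := win i hi x hx
        rcases Nat.eq_zero_or_pos i with h0 | h0
        · exact Or.inr ⟨h0, (h1 h0).ge⟩
        · exact Or.inl (h2 h0)
      · intro i hi x hx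
        exact (win i hi x hx).2.2
      · intro l _ j
        rw [← coeff_taylor_P, taylor_P_eq]
        exact coeff_dvd_of_C_pow_dvd _ _ _ (hdvd j l) s
  intro i hi
  ext1 s
  simpa using key s i hi

end End

end Crest.Agent.R259.Asm
end

-- ▼ part R259/AsmCore
section

/-!
R259 (Nagata): from a domain to its field of fractions (clearing denominators).
-/

set_option autoImplicit false

open MvPolynomial Crest.AlgGeometry

namespace Crest.Agent.R259.Asm

section Map

variable {A B : Type*} [CommRing A] [CommRing B] {σ : Type*}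

theorem homogeneousComponent_map' (f : A →+* B) (k : ℕ) (F : MvPolynomial σ A) :
    homogeneousComponent k (MvPolynomial.map f F) =
      MvPolynomial.map f (homogeneousComponent k F) := by
  ext s
  simp only [coeff_homogeneousComponent, coeff_map]
  split_ifs <;> simp

theorem map_shift (f : A →+* B) (p : σ → A) (F : MvPolynomial σ A) :
    MvPolynomial.map f (MvPolynomial.aeval (fun j => MvPolynomial.X j + MvPolynomial.C (p j)) F) =
      MvPolynomial.aeval (fun j => MvPolynomial.X j + MvPolynomial.C (f (p j)))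
        (MvPolynomial.map f F) := by
  induction F using MvPolynomial.induction_on with
  | C a => simp [MvPolynomial.algebraMap_eq]
  | add P Q hP hQ => rw [map_add, map_add, map_add, map_add, hP, hQ]
  | mul_X P i hP =>
    rw [map_mul, map_mul, map_mul, map_mul, hP, MvPolynomial.aeval_X, MvPolynomial.map_X,
      MvPolynomial.aeval_X, map_add, MvPolynomial.map_X, MvPolynomial.map_C]

/-- order of vanishing is compatible with injective base change. -/
theorem vanishesToOrder_map_iff (f : A →+* B) (hf : Function.Injective f) (p : σ → A)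
    (F : MvPolynomial σ A) (m : ℕ) :
    VanishesToOrder (MvPolynomial.map f F) (fun i => f (p i)) m ↔ VanishesToOrder F p m := by
  unfold VanishesToOrder
  refine forall₂_congr fun k _ => ?_
  rw [← map_shift, homogeneousComponent_map']
  constructor
  · intro h
    exact MvPolynomial.map_injective f hf (by simpa using h)
  · intro h
    rw [h]; simp

theorem vanishesToOrder_C_mul (a : A) (p : σ → A) (F : MvPolynomial σ A) (m : ℕ)
    (h : VanishesToOrder F p m) : VanishesToOrder (MvPolynomial.C a * F) p m := by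
  intro k hk
  have := h k hk
  rw [map_mul, MvPolynomial.aeval_C, MvPolynomial.algebraMap_eq, homogeneousComponent_C_mul, this,
    mul_zero]

end Map

/-- clearing denominators. -/
theorem exists_clear {A L : Type*} [CommRing A] [IsDomain A] [Field L] [Algebra A L]
    [IsFractionRing A L] {σ : Type*} (F : MvPolynomial σ L) :
    ∃ (G : MvPolynomial σ A) (a : A), a ≠ 0 ∧
      MvPolynomial.map (algebraMap A L) G = MvPolynomial.C (algebraMap A L a) * F := by
  classical
  obtain ⟨b, hb⟩ := IsLocalization.exist_integer_multiples_of_finset (nonZeroDivisors A)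
    (F.support.image fun s => coeff s F)
  have hb' : ∀ s ∈ F.support, ∃ c : A, algebraMap A L c = algebraMap A L b * coeff s F := by
    intro s hs
    obtain ⟨c, hc⟩ := hb (coeff s F) (Finset.mem_image_of_mem _ hs)
    refine ⟨c, ?_⟩
    rw [hc]
    rw [Algebra.smul_def]
  choose! c hc using hb'
  refine ⟨∑ s ∈ F.support, monomial s (c s), b, nonZeroDivisors.coe_ne_zero b, ?_⟩
  rw [map_sum]
  conv_rhs => rw [F.as_sum]
  rw [Finset.mul_sum]
  refine Finset.sum_congr rfl fun s hs => ?_
  rw [map_monomial, C_mul_monomial, hc s hs]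

/-- **Core over a domain implies core over a field.** -/
theorem core_of_domain {r n m : ℕ} {A : Type} [CommRing A] [IsDomain A]
    (p : Fin r → Fin 2 → A)
    (H : ∀ F : MvPolynomial (Fin 2) A, F.totalDegree ≤ 3 * n →
      (∀ i, VanishesToOrder F (p i) m) → F = 0) :
    ∃ (L : Type) (_ : Field L) (q : Fin r → Fin 2 → L),
      ∀ F : MvPolynomial (Fin 2) L, F.totalDegree ≤ 3 * n →
        (∀ i, VanishesToOrder F (q i) m) → F = 0 := by
  have hinj : Function.Injective (algebraMap A (FractionRing A)) :=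
    IsFractionRing.injective A (FractionRing A)
  refine ⟨FractionRing A, inferInstance, fun i j => algebraMap A (FractionRing A) (p i j), ?_⟩
  · intro F hdeg hv
    obtain ⟨G, a, ha, hG⟩ := exists_clear (A := A) F
    have ha' : algebraMap A (FractionRing A) a ≠ 0 := by
      simpa using ha
    have hG0 : G = 0 := by
      apply H
      · have h1 : (MvPolynomial.map (algebraMap A (FractionRing A)) G).totalDegree =
            G.totalDegree := by
          unfold MvPolynomial.totalDegree
          rw [MvPolynomial.support_map_of_injective _ hinj]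
        rw [← h1, hG]
        calc (MvPolynomial.C (algebraMap A (FractionRing A) a) * F).totalDegree
            ≤ (MvPolynomial.C (σ := Fin 2) (algebraMap A (FractionRing A) a)).totalDegree +
                F.totalDegree := totalDegree_mul _ _
          _ ≤ 3 * n := by simpa using hdeg
      · intro i
        rw [← vanishesToOrder_map_iff _ hinj, hG]
        exact vanishesToOrder_C_mul _ _ _ _ (hv i)
    rw [hG0, map_zero] at hG
    have := hG.symm
    rw [mul_eq_zero] at this
    rcases this with h | h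
    · exact absurd (by simpa using h) ha'
    · exact h

end Crest.Agent.R259.Asm
end

-- ▼ part R259/AsmPts
section

/-!
R259 (Nagata): evaluation of `k[z,1/z][[t]]` at a point `z = z_j ∈ k*`.
-/

set_option autoImplicit false

open scoped LaurentPolynomial
open LaurentPolynomial

namespace Crest.Agent.R259.Asm

noncomputable section

variable {k : Type*} [Field k]

/-- Mathlib's algebra structure is the embedding of the theta block. -/
theorem algebraMap_eq_emb : algebraMap (PowerSeries k) (RR k) = emb := rfl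

/-- evaluation of a Laurent polynomial at a unit -/
def evL (z : kˣ) : k[T;T⁻¹] →+* k := LaurentPolynomial.eval₂ (RingHom.id k) z

theorem evL_C (z : kˣ) (a : k) : evL z (C a) = a := by
  simp [evL]

theorem evL_T (z : kˣ) (n : ℤ) : evL z (T n) = ((z ^ n : kˣ) : k) := by
  simp [evL]

theorem T_sub_dvd (z : kˣ) (n : ℕ) :
    (T 1 - C (z : k) : k[T;T⁻¹]) ∣ T n - C ((z ^ n : kˣ) : k) := by
  have h := sub_dvd_pow_sub_pow (T 1 : k[T;T⁻¹]) (C (z : k)) n
  rw [T_pow, ← map_pow] at h
  simpa using h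

theorem T_sub_dvd_neg (z : kˣ) (n : ℕ) :
    (T 1 - C (z : k) : k[T;T⁻¹]) ∣ T (-n) - C ((z ^ (-n : ℤ) : kˣ) : k) := by
  obtain ⟨q, hq⟩ := T_sub_dvd z n
  refine ⟨-(T (-n) * C ((z ^ (-n : ℤ) : kˣ) : k)) * q, ?_⟩
  have h1 : (T (-n) : k[T;T⁻¹]) * T n = 1 := by
    rw [← T_add]; simp
  have h2 : (C ((z ^ (-n : ℤ) : kˣ) : k) : k[T;T⁻¹]) * C ((z ^ n : kˣ) : k) = 1 := by
    rw [← map_mul, ← Units.val_mul]
    simp
  calc (T (-n) : k[T;T⁻¹]) - C ((z ^ (-n : ℤ) : kˣ) : k)
      = -(T (-n) * C ((z ^ (-n : ℤ) : kˣ) : k)) * (T n - C ((z ^ n : kˣ) : k)) := by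
        linear_combination (C ((z ^ (-n : ℤ) : kˣ) : k) : k[T;T⁻¹]) * h1
          - (T (-n) : k[T;T⁻¹]) * h2
    _ = _ := by rw [hq]; ring

theorem sub_evL_dvd (z : kˣ) (f : k[T;T⁻¹]) :
    (T 1 - C (z : k) : k[T;T⁻¹]) ∣ f - C (evL z f) := by
  induction f using LaurentPolynomial.induction_on' with
  | add p q hp hq =>
    have : p + q - C (evL z (p + q)) = (p - C (evL z p)) + (q - C (evL z q)) := by
      rw [map_add, map_add]; ring
    rw [this]
    exact dvd_add hp hq
  | C_mul_T n a =>
    have : C a * T n - C (evL z (C a * T n)) = C a * (T n - C ((z ^ n : kˣ) : k)) := by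
      rw [map_mul, evL_C, evL_T, map_mul]; ring
    rw [this]
    refine Dvd.dvd.mul_left ?_ _
    rcases Int.eq_nat_or_neg n with ⟨m, rfl | rfl⟩
    · exact T_sub_dvd z m
    · exact T_sub_dvd_neg z m

/-- evaluation at `z` on `k[z,1/z][[t]]` -/
def evR (z : kˣ) : RR k →+* PowerSeries k := PowerSeries.map (evL z)

theorem sub_evR_dvd (z : kˣ) (f : RR k) :
    (PowerSeries.C (T 1 - C (z : k)) : RR k) ∣ f - algebraMap (PowerSeries k) (RR k) (evR z f) := by
  choose q hq using fun g : k[T;T⁻¹] => sub_evL_dvd z g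
  refine ⟨PowerSeries.mk fun s => q (PowerSeries.coeff s f), ?_⟩
  ext1 s
  rw [PowerSeries.coeff_C_mul, PowerSeries.coeff_mk, ← hq, map_sub, algebraMap_eq_emb]
  simp [emb, evR]

end

end Crest.Agent.R259.Asm
end

-- ▼ part R259/ThetaSer
section

/-!
R259 (Nagata): the theta series `th N Bp al e ∈ M_1` (with `Bp = B + al N`), their coefficients,
units, support classes modulo `3`.
-/

set_option autoImplicit false

namespace Crest.Agent.R259

open scoped LaurentPolynomial
open LaurentPolynomial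

noncomputable section

variable {k : Type*} [Field k]

/-- `Q_e(l) = 3N l(l-1)/2 + l (N e + B')`. -/
def Qf (N Bp e l : ℤ) : ℤ := 3 * N * (l * (l - 1) / 2) + l * (N * e + Bp)

theorem half_succ (l : ℤ) : (l + 1) * (l + 1 - 1) / 2 = l * (l - 1) / 2 + l := by
  have : (l + 1) * (l + 1 - 1) = l * (l - 1) + l * 2 := by ring
  rw [this, Int.add_mul_ediv_right _ _ (by norm_num)]

theorem two_half (l : ℤ) : 2 * (l * (l - 1) / 2) = l * (l - 1) := by
  have h : (2 : ℤ) ∣ l * (l - 1) := by
    have := Int.even_mul_pred_self l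
    exact this.two_dvd
  exact Int.mul_ediv_cancel' h

theorem Qf_zero (N Bp e : ℤ) : Qf N Bp e 0 = 0 := by simp [Qf]

theorem Qf_succ (N Bp e l : ℤ) : Qf N Bp e (l + 1) = Qf N Bp e l + 3 * N * l + N * e + Bp := by
  unfold Qf
  rw [half_succ]
  ring

theorem two_Qf (N Bp e l : ℤ) :
    2 * Qf N Bp e l = 3 * N * (l * (l - 1)) + 2 * l * (N * e + Bp) := by
  unfold Qf
  have := two_half l
  linear_combination (3 * N) * this

theorem le_Qf {N Bp e : ℤ} (h1 : N < Bp) (h2 : Bp < 2 * N) (he1 : -1 ≤ e) (he2 : e ≤ 1) (l : ℤ) :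
    |l| ≤ Qf N Bp e l := by
  have hN : 0 < N := by linarith
  have h := two_Qf N Bp e l
  rcases le_or_gt 0 l with hl | hl
  · rw [abs_of_nonneg hl]
    have hE : 1 ≤ N * e + Bp := by nlinarith
    rcases eq_or_lt_of_le hl with h0 | h0
    · subst h0; rw [Qf_zero]
    · have h3 : 0 ≤ 3 * N * (l * (l - 1)) := by
        apply mul_nonneg (by linarith)
        apply mul_nonneg hl (by omega)
      nlinarith
  · rw [abs_of_neg hl]
    have hE : 1 ≤ 3 * N - (N * e + Bp) := by nlinarith
    obtain ⟨j, hj⟩ : ∃ j : ℤ, l = -j := ⟨-l, by ring⟩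
    subst hj
    have hj1 : 1 ≤ j := by omega
    have h3 : 3 * N * (2 * j) ≤ 3 * N * (-j * (-j - 1)) := by
      apply mul_le_mul_of_nonneg_left _ (by linarith)
      nlinarith
    nlinarith

/-- The theta series `X_e = ∑_l z^{al+e+3l} t^{Q_e(l)}`. -/
def th (N Bp al e : ℤ) : RR k :=
  PowerSeries.mk fun s : ℕ =>
    ∑ l ∈ (Finset.Icc (-(s : ℤ)) s).filter (fun l => Qf N Bp e l = s),
      (T (al + e + 3 * l) : k[T;T⁻¹])

section

variable {N Bp al e : ℤ} (h1 : N < Bp) (h2 : Bp < 2 * N) (he1 : -1 ≤ e) (he2 : e ≤ 1)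

include h1 h2 he1 he2

theorem coef_th_pos (l : ℤ) :
    coef (th N Bp al e : RR k) (al + e + 3 * l) (Qf N Bp e l) = 1 := by
  have hb := le_Qf h1 h2 he1 he2 l
  have hpos : 0 ≤ Qf N Bp e l := le_trans (abs_nonneg l) hb
  obtain ⟨n, hn⟩ := Int.eq_ofNat_of_zero_le hpos
  rw [hn, coef_nat, th, PowerSeries.coeff_mk, AddMonoidAlgebra.coeff_sum,
    Finsupp.finsetSum_apply]
  rw [Finset.sum_eq_single l]
  · simp
  · intro b _ hb'
    rw [T_apply, if_neg]
    intro h
    apply hb'
    linarith
  · intro h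
    exfalso
    apply h
    rw [Finset.mem_filter, Finset.mem_Icc]
    rw [hn] at hb
    have := abs_le.mp hb
    exact ⟨this, hn⟩

omit h1 h2 he1 he2 in
theorem coef_th_ne {x s : ℤ} (h : coef (th N Bp al e : RR k) x s ≠ 0) :
    ∃ l, x = al + e + 3 * l ∧ s = Qf N Bp e l := by
  by_cases hs : 0 ≤ s
  · obtain ⟨n, rfl⟩ := Int.eq_ofNat_of_zero_le hs
    rw [coef_nat, th, PowerSeries.coeff_mk, AddMonoidAlgebra.coeff_sum,
      Finsupp.finsetSum_apply] at h
    obtain ⟨l, hl, hl'⟩ := Finset.exists_ne_zero_of_sum_ne_zero h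
    rw [Finset.mem_filter] at hl
    rw [T_apply] at hl'
    have : al + e + 3 * l = x := by
      by_contra hne
      rw [if_neg hne] at hl'
      exact hl' rfl
    exact ⟨l, this.symm, hl.2.symm⟩
  · exact absurd (coef_of_neg _ _ (not_le.mp hs)) h

omit h1 h2 he1 he2 in
theorem coef_th_eq_zero {x s : ℤ} (h : ∀ l, ¬ (x = al + e + 3 * l ∧ s = Qf N Bp e l)) :
    coef (th N Bp al e : RR k) x s = 0 := by
  by_contra hne
  obtain ⟨l, hl⟩ := coef_th_ne hne
  exact h l hl

open Classical in
theorem coef_th (x s : ℤ) :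
    coef (th N Bp al e : RR k) x s =
      if ∃ l, x = al + e + 3 * l ∧ s = Qf N Bp e l then 1 else 0 := by
  split_ifs with h
  · obtain ⟨l, rfl, rfl⟩ := h
    exact coef_th_pos h1 h2 he1 he2 l
  · push Not at h
    exact coef_th_eq_zero (fun l hl => h l hl.1 hl.2)

omit h1 h2 he1 he2 in
theorem QP_th_aux {B : ℤ} (hB : Bp = B + al * N) (h1 : N < Bp) (h2 : Bp < 2 * N) (he1 : -1 ≤ e)
    (he2 : e ≤ 1) : QP N B 1 (th N Bp al e : RR k) := by
  classical
  intro x s
  rw [coef_th h1 h2 he1 he2, coef_th h1 h2 he1 he2]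
  have : (∃ l, x + 3 * 1 = al + e + 3 * l ∧ s + N * x + 1 * B = Qf N Bp e l) ↔
      (∃ l, x = al + e + 3 * l ∧ s = Qf N Bp e l) := by
    constructor
    · rintro ⟨l, hl1, hl2⟩
      refine ⟨l - 1, by linarith, ?_⟩
      have := Qf_succ N Bp e (l - 1)
      rw [sub_add_cancel] at this
      rw [this] at hl2
      have hx : x = al + e + 3 * (l - 1) := by linarith
      subst hx
      rw [hB] at hl2 ⊢
      linarith
    · rintro ⟨l, hl1, hl2⟩
      refine ⟨l + 1, by linarith, ?_⟩
      rw [Qf_succ, ← hl2, hl1]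
      rw [hB]; ring
  simp only [this]

omit h1 h2 he1 he2 in
theorem coeff_zero_th : PowerSeries.coeff 0 (th N Bp al e : RR k) = T (al + e) := by
  rw [th, PowerSeries.coeff_mk]
  have : (Finset.Icc (-((0 : ℕ) : ℤ)) ((0 : ℕ) : ℤ)).filter
      (fun l => Qf N Bp e l = ((0 : ℕ) : ℤ)) = {0} := by
    ext l
    simp only [Nat.cast_zero, neg_zero, Finset.Icc_self, Finset.mem_filter,
      Finset.mem_singleton]
    constructor
    · exact fun h => h.1
    · rintro rfl
      exact ⟨rfl, Qf_zero _ _ _⟩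
  rw [this]
  simp

omit h1 h2 he1 he2 in
theorem isUnit_th : IsUnit (th N Bp al e : RR k) := by
  rw [PowerSeries.isUnit_iff_constantCoeff, ← PowerSeries.coeff_zero_eq_constantCoeff_apply,
    coeff_zero_th]
  exact isUnit_T _

end

theorem QP_th {N B al e : ℤ} (h1 : N < B + al * N) (h2 : B + al * N < 2 * N) (he1 : -1 ≤ e)
    (he2 : e ≤ 1) : QP N B 1 (th N (B + al * N) al e : RR k) :=
  QP_th_aux rfl h1 h2 he1 he2

/-- the integer `al` with `N < B + al N < 2N`. -/
theorem exists_al {N B : ℤ} (hN : 0 < N) (hB : ¬ N ∣ B) :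
    ∃ al : ℤ, N < B + al * N ∧ B + al * N < 2 * N := by
  refine ⟨1 - B / N, ?_, ?_⟩
  · have h1 : 0 ≤ B % N := Int.emod_nonneg _ hN.ne'
    have h2 : B % N ≠ 0 := fun h => hB (Int.dvd_of_emod_eq_zero h)
    have h3 := Int.emod_add_mul_ediv B N
    have h4 : 0 < B % N := lt_of_le_of_ne h1 (Ne.symm h2)
    nlinarith
  · have h2 : B % N < N := Int.emod_lt_of_pos _ hN
    have h3 := Int.emod_add_mul_ediv B N
    nlinarith

theorem not_dvd_NB (n r m : ℕ) : ¬ (6 * (n : ℤ) ^ 2) ∣ (2 * n * r * m - 1 : ℤ) := by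
  intro h
  have h2 : (2 : ℤ) ∣ 2 * n * r * m - 1 :=
    dvd_trans ⟨3 * (n : ℤ) ^ 2, by ring⟩ h
  have h3 : (2 : ℤ) ∣ 2 * n * r * m := ⟨n * r * m, by ring⟩
  have h4 : (2 : ℤ) ∣ 1 := by
    have := dvd_sub h3 h2
    simp at this
  norm_num at h4

/-- support class modulo 3 -/
def Cls (c : ℤ) (a : RR k) : Prop := ∀ x s : ℤ, coef a x s ≠ 0 → (3 : ℤ) ∣ x - c

theorem Cls.mul {c d : ℤ} {a b : RR k} (ha : Cls c a) (hb : Cls d b) : Cls (c + d) (a * b) := by
  intro x s h
  rw [coef_mul] at h
  obtain ⟨p, hp⟩ : ∃ p : ℤ × ℤ, coef a p.1 p.2 * coef b (x - p.1) (s - p.2) ≠ 0 := by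
    by_contra hcon
    push Not at hcon
    exact h (finsum_eq_zero_of_forall_eq_zero hcon)
  obtain ⟨hp1, hp2⟩ := mul_ne_zero_iff.mp hp
  have h1 := ha _ _ hp1
  have h2 := hb _ _ hp2
  have := dvd_add h1 h2
  have e : p.1 - c + (x - p.1 - d) = x - (c + d) := by ring
  rwa [e] at this

theorem Cls.emb (u : PowerSeries k) : Cls 0 (emb u) := by
  intro x s h
  rw [coef_emb] at h
  have : x = 0 := by
    by_contra hx
    apply h
    simp [hx]
  simp [this]

theorem Cls.one : Cls 0 (1 : RR k) := by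
  have : (1 : RR k) = R259.emb 1 := by simp
  rw [this]; exact Cls.emb 1

theorem Cls.congr {c d : ℤ} {a : RR k} (ha : Cls c a) (h : (3 : ℤ) ∣ c - d) : Cls d a := by
  intro x s hx
  have := dvd_add (ha x s hx) h
  have e : x - c + (c - d) = x - d := by ring
  rwa [e] at this

theorem Cls.smul {c : ℤ} {a : RR k} (u : PowerSeries k) (ha : Cls c a) :
    Cls c (R259.emb u * a) := by
  have := (Cls.emb u).mul ha
  rwa [zero_add] at this

theorem Cls.pow {c : ℤ} {a : RR k} (ha : Cls c a) (n : ℕ) : Cls (n * c) (a ^ n) := by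
  induction n with
  | zero => simpa using Cls.one
  | succ n ih =>
    rw [pow_succ]
    have := ih.mul ha
    convert this using 1
    push_cast; ring

theorem Cls.add {c : ℤ} {a b : RR k} (ha : Cls c a) (hb : Cls c b) : Cls c (a + b) := by
  intro x s h
  rw [coef_add] at h
  by_cases h0 : coef a x s = 0
  · rw [h0, zero_add] at h
    exact hb x s h
  · exact ha x s h0

theorem Cls.neg {c : ℤ} {a : RR k} (ha : Cls c a) : Cls c (-a) := by
  intro x s h
  rw [coef_neg] at h
  exact ha x s (fun h0 => h (by rw [h0, neg_zero]))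

theorem Cls.sub {c : ℤ} {a b : RR k} (ha : Cls c a) (hb : Cls c b) : Cls c (a - b) := by
  rw [sub_eq_add_neg]; exact ha.add hb.neg

theorem Cls_th {N Bp al e : ℤ} :
    Cls (al + e) (th N Bp al e : RR k) := by
  intro x s h
  obtain ⟨l, hl, _⟩ := coef_th_ne h
  rw [hl]
  exact ⟨l, by ring⟩


end

end Crest.Agent.R259
end

-- ▼ part R259/Assembly
section

set_option autoImplicit false

namespace Crest.Agent.R259.Assembly

open Polynomial

section JJ

variable {R : Type*} [CommRing R]

/-- `JJ ζ m W`: every `ε`-coefficient of `W` lies in the ideal `(ζ, V)^m` of `R[V]`. -/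
def JJ (ζ : R) (m : ℕ) (W : R[X][X]) : Prop := ∀ k l, ζ ^ (m - l) ∣ (W.coeff k).coeff l

lemma JJ.zero (ζ : R) (m : ℕ) : JJ ζ m 0 := by
  intro k l; simp

lemma JJ.add {ζ : R} {m : ℕ} {W W' : R[X][X]} (h : JJ ζ m W) (h' : JJ ζ m W') :
    JJ ζ m (W + W') := by
  intro k l
  rw [coeff_add, coeff_add]
  exact dvd_add (h k l) (h' k l)

lemma JJ.sum {ζ : R} {m : ℕ} {ι : Type*} (s : Finset ι) (W : ι → R[X][X])
    (h : ∀ i ∈ s, JJ ζ m (W i)) : JJ ζ m (∑ i ∈ s, W i) := by
  classical
  induction s using Finset.induction_on with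
  | empty => simpa using JJ.zero ζ m
  | insert a s ha ih =>
    rw [Finset.sum_insert ha]
    exact (h a (Finset.mem_insert_self _ _)).add
      (ih fun i hi => h i (Finset.mem_insert_of_mem hi))

lemma JJ.mul {ζ : R} {a b : ℕ} {W W' : R[X][X]} (h : JJ ζ a W) (h' : JJ ζ b W') :
    JJ ζ (a + b) (W * W') := by
  intro k l
  rw [coeff_mul, finsetSum_coeff]
  refine Finset.dvd_sum fun p hp => ?_
  rw [coeff_mul]
  refine Finset.dvd_sum fun q hq => ?_
  have hq' : q.1 + q.2 = l := Finset.HasAntidiagonal.mem_antidiagonal.mp hq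
  have h1 : ζ ^ ((a - q.1) + (b - q.2)) ∣ (W.coeff p.1).coeff q.1 * (W'.coeff p.2).coeff q.2 := by
    rw [pow_add]
    exact mul_dvd_mul (h _ _) (h' _ _)
  exact (pow_dvd_pow ζ (by omega)).trans h1

lemma JJ.of_zero (ζ : R) (W : R[X][X]) : JJ ζ 0 W := by
  intro k l; simp

lemma JJ.mono {ζ : R} {a b : ℕ} (hab : a ≤ b) {W : R[X][X]} (h : JJ ζ b W) : JJ ζ a W := by
  intro k l
  exact (pow_dvd_pow ζ (by omega)).trans (h k l)

lemma JJ.mul_left {ζ : R} {m : ℕ} {W : R[X][X]} (U : R[X][X]) (h : JJ ζ m W) :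
    JJ ζ m (U * W) := by
  have := (JJ.of_zero ζ U).mul h
  rwa [zero_add] at this

lemma JJ.pow {ζ : R} {a : ℕ} {W : R[X][X]} (h : JJ ζ a W) (n : ℕ) :
    JJ ζ (n * a) (W ^ n) := by
  induction n with
  | zero => simpa using JJ.of_zero ζ 1
  | succ n ih =>
    rw [pow_succ]
    have := ih.mul h
    rwa [← Nat.succ_mul] at this

end JJ

section Phi

variable {O R : Type*} [CommRing O] [CommRing R] [Algebra O R]

/-- coefficient embedding `O[ε] → R[V][ε]`. -/
noncomputable def phi : O[X] →+* R[X][X] :=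
  Polynomial.mapRingHom (Polynomial.C.comp (algebraMap O R))

/-- the images of the two variables. -/
noncomputable def img (x y h : R) : Fin 2 → R[X][X] :=
  ![C (C x), C (C y) + X * C ((1 + X) * C h)]

/-- the substitution `x ↦ x`, `y ↦ y + ε (1+V) h`. -/
noncomputable def Phi (x y h : R) : MvPolynomial (Fin 2) O[X] →+* R[X][X] :=
  MvPolynomial.eval₂Hom (phi (O := O) (R := R)) (img x y h)

/-- the point `(ev x, ev y + ε ev h)`. -/
noncomputable def pt (ev : R →+* O) (x y h : R) : Fin 2 → O[X] :=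
  ![C (ev x), C (ev y) + X * C (ev h)]

lemma JJ_img (ζ : R) (ev : R →+* O) (hev : ∀ a : R, ζ ∣ a - algebraMap O R (ev a))
    (x y h : R) (i : Fin 2) :
    JJ ζ 1 (img x y h i - phi (pt ev x y h i)) := by
  have hphiC : ∀ a : O, phi (R := R) (C a) = C (C (algebraMap O R a)) := by
    intro a; simp [phi]
  have hphiX : phi (O := O) (R := R) X = X := by simp [phi]
  fin_cases i
  · intro k l
    simp only [img, pt, Fin.zero_eta, Matrix.cons_val_zero, hphiC]
    rw [← C_sub, ← C_sub, coeff_C]
    split_ifs with hk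
    · rw [coeff_C]
      split_ifs with hl
      · subst hl; simpa using hev x
      · simp
    · simp
  · have e : img x y h 1 - phi (pt ev x y h 1) =
        C (C (y - algebraMap O R (ev y))) + X * C (C (h - algebraMap O R (ev h)))
          + X * C (X * C h) := by
      simp only [img, pt, Matrix.cons_val_one, Matrix.cons_val_fin_one, map_add, map_mul, hphiC,
        hphiX, C_sub]
      simp only [map_one]
      ring
    simp only [Fin.mk_one, e]
    refine JJ.add (JJ.add ?_ ?_) ?_
    · intro k l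
      rw [coeff_C]
      split_ifs with hk
      · rw [coeff_C]
        split_ifs with hl
        · subst hl; simpa using hev y
        · simp
      · simp
    · refine JJ.mul_left _ ?_
      intro k l
      rw [coeff_C]
      split_ifs with hk
      · rw [coeff_C]
        split_ifs with hl
        · subst hl; simpa using hev h
        · simp
      · simp
    · refine JJ.mul_left _ ?_
      intro k l
      rw [coeff_C]
      split_ifs with hk
      · rcases Nat.eq_zero_or_pos l with hl | hl
        · subst hl; simp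
        · rw [Nat.sub_eq_zero_of_le hl]; simp
      · simp

/-- Vanishing to order `m` at the point gives membership in `(ζ, V)^m`. -/
lemma JJ_Phi (ζ : R) (ev : R →+* O) (hev : ∀ a : R, ζ ∣ a - algebraMap O R (ev a))
    (x y h : R) (m : ℕ) (F : MvPolynomial (Fin 2) O[X])
    (hF : Crest.AlgGeometry.VanishesToOrder F (pt ev x y h) m) :
    JJ ζ m (Phi x y h F) := by
  classical
  set p := pt ev x y h with hp
  set G : MvPolynomial (Fin 2) O[X] :=
    MvPolynomial.aeval (fun j => MvPolynomial.X j + MvPolynomial.C (p j)) F with hG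
  have hPhi : Phi x y h F =
      MvPolynomial.eval₂Hom (phi (O := O) (R := R)) (fun i => img x y h i - phi (p i)) G := by
    rw [hG]
    have : (MvPolynomial.eval₂Hom (phi (O := O) (R := R)) (fun i => img x y h i - phi (p i))).comp
        ((MvPolynomial.aeval (R := O[X]) (fun j => MvPolynomial.X j + MvPolynomial.C (p j)) :
          MvPolynomial (Fin 2) O[X] →ₐ[O[X]] MvPolynomial (Fin 2) O[X]) :
            MvPolynomial (Fin 2) O[X] →+* MvPolynomial (Fin 2) O[X]) = Phi x y h := by
      apply MvPolynomial.ringHom_ext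
      · intro r
        simp [Phi]
      · intro i
        simp [Phi]
    rw [← this]
    rfl
  have hcoeff : ∀ s : Fin 2 →₀ ℕ, s.degree < m → G.coeff s = 0 := by
    intro s hs
    have := hF s.degree hs
    have h2 := congrArg (MvPolynomial.coeff s) this
    rw [MvPolynomial.coeff_homogeneousComponent, if_pos rfl, MvPolynomial.coeff_zero] at h2
    exact h2
  rw [hPhi, MvPolynomial.coe_eval₂Hom, MvPolynomial.eval₂_eq']
  refine JJ.sum _ _ fun s hs => ?_
  have hsm : m ≤ s.degree := by
    by_contra hlt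
    push Not at hlt
    exact (MvPolynomial.mem_support_iff.mp hs) (hcoeff s hlt)
  refine JJ.mul_left _ ?_
  rw [Fin.prod_univ_two]
  have h0 := (JJ_img ζ ev hev x y h 0).pow (s 0)
  have h1 := (JJ_img ζ ev hev x y h 1).pow (s 1)
  refine JJ.mono ?_ (h0.mul h1)
  have : s.degree = s 0 + s 1 := by
    rw [Finsupp.degree_eq_sum]
    simp [Fin.sum_univ_two]
  omega

end Phi


section Gadic

variable {A : Type*} [CommRing A]

/-- the cubic `g = x y - τ0 x^3 - τ1 - τ2 y^3`. -/
noncomputable def gpoly (t0 t1 t2 : A) : MvPolynomial (Fin 2) A :=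
  MvPolynomial.X 0 * MvPolynomial.X 1 - MvPolynomial.C t0 * MvPolynomial.X 0 ^ 3
    - MvPolynomial.C t1 - MvPolynomial.C t2 * MvPolynomial.X 1 ^ 3

/-- the index set of the `g`-adic expansion. -/
def idx (D : ℕ) : Finset (ℕ × ℕ × ℕ) :=
  (Finset.range (D+1) ×ˢ Finset.range 3 ×ˢ Finset.range (D+1)).filter
    (fun p => p.2.1 + p.2.2 + 3 * p.1 ≤ D)

lemma mem_idx {D : ℕ} {l a b : ℕ} : (l, a, b) ∈ idx D ↔ a < 3 ∧ a + b + 3 * l ≤ D := by
  simp only [idx, Finset.mem_filter, Finset.mem_product, Finset.mem_range]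
  constructor
  · rintro ⟨⟨h1, h2, h3⟩, h4⟩
    exact ⟨h2, h4⟩
  · rintro ⟨h1, h2⟩
    refine ⟨⟨?_, h1, ?_⟩, h2⟩ <;> omega

/-- basis elements `g^l x^a y^b`. -/
noncomputable def bas (t0 t1 t2 : A) (p : ℕ × ℕ × ℕ) : MvPolynomial (Fin 2) A :=
  gpoly t0 t1 t2 ^ p.1 * (MvPolynomial.X 0 ^ p.2.1 * MvPolynomial.X 1 ^ p.2.2)

lemma span_mono_g (t0 t1 t2 : A) {D D' : ℕ} (h : D + 3 ≤ D') {q : MvPolynomial (Fin 2) A}
    (hq : q ∈ Submodule.span A (bas t0 t1 t2 '' (idx D : Set (ℕ × ℕ × ℕ)))) :
    gpoly t0 t1 t2 * q ∈ Submodule.span A (bas t0 t1 t2 '' (idx D' : Set (ℕ × ℕ × ℕ))) := by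
  induction hq using Submodule.span_induction with
  | mem x hx =>
    obtain ⟨⟨l, a, b⟩, hp, rfl⟩ := hx
    refine Submodule.subset_span ⟨(l+1, a, b), ?_, ?_⟩
    · have := mem_idx.mp (Finset.mem_coe.mp hp)
      refine Finset.mem_coe.mpr (mem_idx.mpr ?_)
      omega
    · simp only [bas, pow_succ]; ring
  | zero => simp
  | add x y _ _ hx hy => rw [mul_add]; exact Submodule.add_mem _ hx hy
  | smul r x _ hx => rw [mul_smul_comm]; exact Submodule.smul_mem _ _ hx

lemma monomial_mem (t0 t1 t2 : A) (ht0 : IsUnit t0) (a : ℕ) :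
    ∀ b D : ℕ, a + b ≤ D →
    (MvPolynomial.X 0 ^ a * MvPolynomial.X 1 ^ b : MvPolynomial (Fin 2) A) ∈
      Submodule.span A (bas t0 t1 t2 '' (idx D : Set (ℕ × ℕ × ℕ))) := by
  obtain ⟨u, hu⟩ := ht0
  induction a using Nat.strong_induction_on with
  | _ a ih =>
    intro b D hD
    by_cases ha : a < 3
    · refine Submodule.subset_span ⟨(0, a, b), ?_, ?_⟩
      · exact Finset.mem_coe.mpr (mem_idx.mpr ⟨ha, by omega⟩)
      · simp [bas]
    · push Not at ha
      obtain ⟨a', rfl⟩ : ∃ a', a = a' + 3 := ⟨a - 3, by omega⟩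
      have e : (MvPolynomial.X 0 ^ (a' + 3) * MvPolynomial.X 1 ^ b : MvPolynomial (Fin 2) A) =
          (↑u⁻¹ : A) • (MvPolynomial.X 0 ^ (a' + 1) * MvPolynomial.X 1 ^ (b + 1)
            - t1 • (MvPolynomial.X 0 ^ a' * MvPolynomial.X 1 ^ b)
            - t2 • (MvPolynomial.X 0 ^ a' * MvPolynomial.X 1 ^ (b + 3))
            - gpoly t0 t1 t2 * (MvPolynomial.X 0 ^ a' * MvPolynomial.X 1 ^ b)) := by
        have e2 : (MvPolynomial.X 0 ^ (a' + 1) * MvPolynomial.X 1 ^ (b + 1)
            - t1 • (MvPolynomial.X 0 ^ a' * MvPolynomial.X 1 ^ b)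
            - t2 • (MvPolynomial.X 0 ^ a' * MvPolynomial.X 1 ^ (b + 3))
            - gpoly t0 t1 t2 * (MvPolynomial.X 0 ^ a' * MvPolynomial.X 1 ^ b) :
              MvPolynomial (Fin 2) A) =
            t0 • (MvPolynomial.X 0 ^ (a' + 3) * MvPolynomial.X 1 ^ b) := by
          simp only [gpoly, MvPolynomial.smul_eq_C_mul]
          ring
        rw [e2, smul_smul, ← hu, Units.inv_mul, one_smul]
      rw [e]
      refine Submodule.smul_mem _ _ (Submodule.sub_mem _ (Submodule.sub_mem _
        (Submodule.sub_mem _ ?_ ?_) ?_) ?_)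
      · exact ih (a'+1) (by omega) (b+1) D (by omega)
      · exact Submodule.smul_mem _ _ (ih a' (by omega) b D (by omega))
      · exact Submodule.smul_mem _ _ (ih a' (by omega) (b+3) D (by omega))
      · exact span_mono_g t0 t1 t2 (D := D - 3) (by omega) (ih a' (by omega) b (D-3) (by omega))

/-- the `g`-adic expansion with total degree control. -/
lemma gadic (t0 t1 t2 : A) (ht0 : IsUnit t0) (D : ℕ) (F : MvPolynomial (Fin 2) A)
    (hF : F.totalDegree ≤ D) :
    ∃ c : ℕ × ℕ × ℕ → A, F = ∑ p ∈ idx D, MvPolynomial.C (c p) * bas t0 t1 t2 p := by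
  classical
  have hmem : F ∈ Submodule.span A (bas t0 t1 t2 '' (idx D : Set (ℕ × ℕ × ℕ))) := by
    rw [F.as_sum]
    refine Submodule.sum_mem _ fun s hs => ?_
    have hsd : s 0 + s 1 ≤ D := by
      have h1 := MvPolynomial.le_totalDegree hs
      have h2 : (s.sum fun _ e => e) = s 0 + s 1 := by
        rw [Finsupp.sum_fintype _ _ (by simp), Fin.sum_univ_two]
      omega
    have e : MvPolynomial.monomial s (MvPolynomial.coeff s F) =
        MvPolynomial.coeff s F • (MvPolynomial.X 0 ^ (s 0) * MvPolynomial.X 1 ^ (s 1)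
          : MvPolynomial (Fin 2) A) := by
      rw [MvPolynomial.monomial_eq, Finsupp.prod_fintype _ _ (by simp), Fin.prod_univ_two,
        MvPolynomial.smul_eq_C_mul]
    rw [e]
    exact Submodule.smul_mem _ _ (monomial_mem t0 t1 t2 ht0 _ _ _ hsd)
  obtain ⟨c, hc⟩ := (Submodule.mem_span_image_finset_iff_exists_fun A).mp hmem
  refine ⟨fun p => if hp : p ∈ idx D then c ⟨p, hp⟩ else 0, ?_⟩
  rw [← hc, ← Finset.sum_coe_sort (idx D)]
  refine Finset.sum_congr rfl fun p _ => ?_
  rw [MvPolynomial.smul_eq_C_mul]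
  simp

end Gadic


lemma coeff_mul_low {S : Type*} [CommRing S] (P Q : S[X]) (k : ℕ)
    (h : ∀ j < k, P.coeff j = 0) : (P * Q).coeff k = P.coeff k * Q.coeff 0 := by
  rw [coeff_mul, Finset.sum_eq_single (k, 0)]
  · rintro ⟨i, j⟩ hij hne
    have hsum : i + j = k := Finset.HasAntidiagonal.mem_antidiagonal.mp hij
    have : i < k := by
      rcases Nat.eq_zero_or_pos j with hj | hj
      · subst hj
        exact absurd (by simp at hsum; rw [hsum]) hne
      · omega
    simp [h i this]
  · intro hk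
    exact absurd (Finset.HasAntidiagonal.mem_antidiagonal.mpr (by simp)) hk

section Main

variable {O R : Type*} [CommRing O] [CommRing R] [Algebra O R]

lemma phi_C (a : O) : phi (R := R) (C a) = C (C (algebraMap O R a)) := by
  simp [phi]

lemma coeff_phi (c : O[X]) (j : ℕ) :
    (phi (R := R) c).coeff j = C (algebraMap O R (c.coeff j)) := by
  simp [phi]

/-- the `ε`-part `(1+V) h` of the second variable. -/
noncomputable def EE (h : R) : R[X][X] := C ((1 + X) * C h)

/-- `Φ(g) = ε G`. -/
noncomputable def GG (x y h : R) (t2 : O) : R[X][X] :=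
  EE h * (C (C (x - 3 * algebraMap O R t2 * y ^ 2))
    - X * (3 * C (C (algebraMap O R t2 * y)) * EE h)
    - X ^ 2 * (C (C (algebraMap O R t2)) * EE h ^ 2))

lemma Phi_gpoly (x y h : R) (t0 t1 t2 : O)
    (hg : x * y = algebraMap O R t0 * x ^ 3 + algebraMap O R t1 + algebraMap O R t2 * y ^ 3) :
    Phi x y h (gpoly (C t0) (C t1) (C t2)) = X * GG x y h t2 := by
  have e0 : Phi x y h (MvPolynomial.X 0 : MvPolynomial (Fin 2) O[X]) = C (C x) := by
    simp [Phi, img]
  have e1 : Phi x y h (MvPolynomial.X 1 : MvPolynomial (Fin 2) O[X]) = C (C y) + X * EE h := by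
    simp [Phi, img, EE]
  have eC : ∀ a : O, Phi x y h (MvPolynomial.C (C a) : MvPolynomial (Fin 2) O[X])
      = C (C (algebraMap O R a)) := by
    intro a
    simp [Phi, phi_C]
  have hg' : (C (C x) * C (C y) : R[X][X]) = C (C (algebraMap O R t0)) * C (C x) ^ 3
      + C (C (algebraMap O R t1)) + C (C (algebraMap O R t2)) * C (C y) ^ 3 := by
    rw [← C_mul, ← C_mul, hg]
    simp only [C_add, C_mul, C_pow]
  simp only [gpoly, map_sub, map_mul, map_pow, e0, e1, eC, GG]
  have e3 : (C (C (3 : R)) : R[X][X]) = 3 := by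
    have h3 : (C (3 : R) : R[X]) = 3 := map_ofNat C 3
    rw [h3]
    exact map_ofNat C 3
  simp only [e3]
  linear_combination hg'

lemma coeff_GG (x y h u : R) (t2 : O) (hh : h * (x - 3 * algebraMap O R t2 * y ^ 2) = u ^ 3) :
    (GG x y h t2).coeff 0 = (1 + X) * C (u ^ 3) := by
  rw [coeff_zero_eq_eval_zero]
  simp only [GG, EE, eval_mul, eval_sub, eval_C, eval_X, eval_pow, zero_mul, sub_zero]
  rw [← hh]
  simp only [ne_eq, OfNat.ofNat_ne_zero, not_false_eq_true, zero_pow, zero_mul, sub_zero, C_mul]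
  ring

lemma coeff_term (x y h u : R) (t0 t1 t2 : O)
    (hg : x * y = algebraMap O R t0 * x ^ 3 + algebraMap O R t1 + algebraMap O R t2 * y ^ 3)
    (hh : h * (x - 3 * algebraMap O R t2 * y ^ 2) = u ^ 3)
    (c : O[X]) (l a b ν : ℕ) (hc : ∀ j, l + j < ν → c.coeff j = 0) :
    (Phi x y h (MvPolynomial.C c * bas (C t0) (C t1) (C t2) (l, a, b))).coeff ν =
      if l ≤ ν then C (algebraMap O R (c.coeff (ν - l)) * (u ^ 3) ^ l * x ^ a * y ^ b)
        * (1 + X) ^ l else 0 := by
  have e0 : Phi x y h (MvPolynomial.X 0 : MvPolynomial (Fin 2) O[X]) = C (C x) := by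
    simp [Phi, img]
  have e1 : Phi x y h (MvPolynomial.X 1 : MvPolynomial (Fin 2) O[X]) = C (C y) + X * EE h := by
    simp [Phi, img, EE]
  have eC : Phi x y h (MvPolynomial.C c : MvPolynomial (Fin 2) O[X]) = phi c := by
    simp [Phi]
  have e : Phi x y h (MvPolynomial.C c * bas (C t0) (C t1) (C t2) (l, a, b)) =
      X ^ l * (phi c * (GG x y h t2 ^ l * (C (C x) ^ a * (C (C y) + X * EE h) ^ b))) := by
    simp only [bas, map_mul, map_pow, eC, e0, e1, Phi_gpoly x y h t0 t1 t2 hg]
    ring
  rw [e, coeff_X_pow_mul']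
  split_ifs with hl
  · rw [coeff_mul_low]
    · rw [coeff_phi]
      have h0 : (GG x y h t2 ^ l * (C (C x) ^ a * (C (C y) + X * EE h) ^ b)).coeff 0 =
          ((1 + X) * C (u ^ 3)) ^ l * (C x ^ a * C y ^ b) := by
        rw [← coeff_GG x y h u t2 hh]
        simp only [coeff_zero_eq_eval_zero, eval_mul, eval_pow, eval_C, eval_add, eval_X,
          zero_mul, add_zero]
      rw [h0]
      simp only [C_mul, C_pow, mul_pow]
      ring
    · intro j hj
      rw [coeff_phi, hc j (by omega)]
      simp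
  · rfl

/-- box containing `idx (3n)`. -/
def box (n : ℕ) : Finset (ℕ × ℕ × ℕ) :=
  Finset.range (n+1) ×ˢ Finset.range 3 ×ˢ Finset.range (3*n+1)

lemma idx_subset_box (n : ℕ) : idx (3 * n) ⊆ box n := by
  rintro ⟨l, a, b⟩ hp
  rw [mem_idx] at hp
  simp only [box, Finset.mem_product, Finset.mem_range]
  omega

lemma sum_idx {M : Type*} [AddCommMonoid M] (n : ℕ) (f : ℕ × ℕ × ℕ → M) :
    ∑ p ∈ idx (3 * n), f p = ∑ l ∈ Finset.range (n+1), ∑ a ∈ Finset.range 3,
      ∑ b ∈ Finset.range (3*n+1), if (l, a, b) ∈ idx (3 * n) then f (l, a, b) else 0 := by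
  classical
  have h1 : ∑ p ∈ idx (3 * n), f p = ∑ p ∈ box n, if p ∈ idx (3 * n) then f p else 0 := by
    rw [Finset.sum_ite_mem, Finset.inter_eq_right.mpr (idx_subset_box n)]
  rw [h1, box, Finset.sum_product]
  refine Finset.sum_congr rfl fun l _ => ?_
  rw [Finset.sum_product]

theorem assembly {J : Type*}
    (x y u h X1 : R) (hu : X1 * u = 1) (t0 t1 t2 : O) (ht0 : IsUnit t0)
    (hg : x * y = algebraMap O R t0 * x ^ 3 + algebraMap O R t1 + algebraMap O R t2 * y ^ 3)
    (hh : h * (x - 3 * algebraMap O R t2 * y ^ 2) = u ^ 3)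
    (hker : ∀ p0 p1 p2 : O[X], aeval y p0 + x * aeval y p1 + x ^ 2 * aeval y p2 = 0 →
      p0 = 0 ∧ p1 = 0 ∧ p2 = 0)
    (n m : ℕ) (zeta : J → R) (ev : J → R →+* O)
    (hev : ∀ j (a : R), zeta j ∣ a - algebraMap O R (ev j a))
    (F : MvPolynomial (Fin 2) O[X]) (hF : F ≠ 0) (hdeg : F.totalDegree ≤ 3 * n)
    (hvan : ∀ j, Crest.AlgGeometry.VanishesToOrder F
      ![C (ev j x), C (ev j y) + X * C (ev j h)] m) :
    ∃ c : ℕ → R,
      (∀ i ≤ n, c i ∈ Submodule.span O
        {w : R | ∃ a b e, a + b + e = 3 * i ∧ w = (X1 * x) ^ a * (X1 * y) ^ b * X1 ^ e}) ∧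
      (∃ i ≤ n, c i ≠ 0) ∧
      ∀ j l, zeta j ^ (m - l) ∣
        (∑ i ∈ Finset.range (n+1), C (c i) * (1 + X) ^ (n - i) : R[X]).coeff l := by
  classical
  obtain ⟨cc, hcc⟩ := gadic (C t0) (C t1) (C t2) (ht0.map C) (3 * n) F hdeg
  -- some coefficient is nonzero
  have hex : ∃ ν, ∃ p ∈ idx (3 * n), ∃ j, p.1 + j = ν ∧ (cc p).coeff j ≠ 0 := by
    by_contra hcon
    push Not at hcon
    apply hF
    rw [hcc]
    refine Finset.sum_eq_zero fun p hp => ?_
    have : cc p = 0 := by
      ext j
      simpa using hcon (p.1 + j) p hp j rfl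
    simp [this]
  set ν := Nat.find hex with hν
  obtain ⟨p0, hp0, j0, hj0, hne0⟩ := Nat.find_spec hex
  rw [← hν] at hj0
  have hlow : ∀ p ∈ idx (3 * n), ∀ j, p.1 + j < ν → (cc p).coeff j = 0 := by
    intro p hp j hj
    by_contra hne
    exact Nat.find_min hex hj ⟨p, hp, j, rfl, hne⟩
  -- the coefficients
  set d : ℕ → ℕ → ℕ → O := fun l a b =>
    if (l, a, b) ∈ idx (3 * n) then (if l ≤ ν then (cc (l, a, b)).coeff (ν - l) else 0) else 0
    with hd
  set c : ℕ → R := fun i => X1 ^ (3 * i) * ∑ a ∈ Finset.range 3, ∑ b ∈ Finset.range (3*n+1),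
    algebraMap O R (d (n - i) a b) * (x ^ a * y ^ b) with hc
  have hH : (Phi x y h F).coeff ν = ∑ l ∈ Finset.range (n+1), ∑ a ∈ Finset.range 3,
      ∑ b ∈ Finset.range (3*n+1),
        C (algebraMap O R (d l a b) * (u ^ 3) ^ l * x ^ a * y ^ b) * (1 + X) ^ l := by
    rw [hcc, map_sum, finsetSum_coeff, sum_idx]
    refine Finset.sum_congr rfl fun l _ => Finset.sum_congr rfl fun a _ =>
      Finset.sum_congr rfl fun b _ => ?_
    by_cases hmem : (l, a, b) ∈ idx (3 * n)
    · rw [if_pos hmem, coeff_term x y h u t0 t1 t2 hg hh _ l a b ν (fun j hj => hlow _ hmem j hj)]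
      simp only [hd, if_pos hmem]
      split_ifs with hl
      · rfl
      · simp
    · rw [if_neg hmem]
      simp only [hd, if_neg hmem]
      simp
  have hH0 : (∑ i ∈ Finset.range (n+1), C (c i) * (1 + X) ^ (n - i) : R[X]) =
      C (X1 ^ (3 * n)) * (Phi x y h F).coeff ν := by
    rw [hH, ← Finset.sum_range_reflect, Finset.mul_sum]
    refine Finset.sum_congr rfl fun l hl => ?_
    have hln : l ≤ n := by
      have := Finset.mem_range.mp hl
      omega
    have e1 : n + 1 - 1 - l = n - l := by omega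
    have e2 : n - (n - l) = l := by omega
    rw [e1, e2]
    simp only [hc, e2]
    have e3 : X1 ^ (3 * n) * (u ^ 3) ^ l = X1 ^ (3 * (n - l)) := by
      have : 3 * n = 3 * (n - l) + 3 * l := by omega
      rw [this, pow_add, ← pow_mul, mul_assoc, ← mul_pow, hu, one_pow, mul_one]
    rw [← e3, Finset.mul_sum, Finset.mul_sum, map_sum, Finset.sum_mul]
    refine Finset.sum_congr rfl fun a _ => ?_
    rw [Finset.mul_sum, Finset.mul_sum, map_sum, Finset.sum_mul]
    refine Finset.sum_congr rfl fun b _ => ?_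
    simp only [C_mul, C_pow]
    ring
  refine ⟨c, ?_, ?_, ?_⟩
  · intro i hi
    simp only [hc]
    rw [Finset.mul_sum]
    refine Submodule.sum_mem _ fun a _ => ?_
    rw [Finset.mul_sum]
    refine Submodule.sum_mem _ fun b _ => ?_
    by_cases hmem : (n - i, a, b) ∈ idx (3 * n)
    · have hab := mem_idx.mp hmem
      have e : X1 ^ (3 * i) * (algebraMap O R (d (n - i) a b) * (x ^ a * y ^ b)) =
          d (n - i) a b • ((X1 * x) ^ a * (X1 * y) ^ b * X1 ^ (3 * i - a - b)) := by
        rw [Algebra.smul_def]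
        have : 3 * i = a + b + (3 * i - a - b) := by omega
        conv_lhs => rw [this]
        rw [pow_add, pow_add, mul_pow, mul_pow]
        ring
      rw [e]
      refine Submodule.smul_mem _ _ (Submodule.subset_span ⟨a, b, 3 * i - a - b, by omega, rfl⟩)
    · have : d (n - i) a b = 0 := by simp only [hd, if_neg hmem]
      rw [this]
      simp
  · obtain ⟨l0, a0, b0⟩ := p0
    have hab := mem_idx.mp hp0
    simp only at hj0 hne0
    refine ⟨n - l0, by omega, ?_⟩
    intro hzero
    have e2 : n - (n - l0) = l0 := by omega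
    simp only [hc, e2] at hzero
    have hzero' : ∑ a ∈ Finset.range 3, ∑ b ∈ Finset.range (3*n+1),
        algebraMap O R (d l0 a b) * (x ^ a * y ^ b) = 0 := by
      have h1 : u ^ (3 * (n - l0)) * (X1 ^ (3 * (n - l0)) * ∑ a ∈ Finset.range 3,
          ∑ b ∈ Finset.range (3*n+1), algebraMap O R (d l0 a b) * (x ^ a * y ^ b)) = 0 := by
        rw [hzero, mul_zero]
      rwa [← mul_assoc, ← mul_pow, mul_comm u X1, hu, one_pow, one_mul] at h1
    set P : ℕ → O[X] := fun a => ∑ b ∈ Finset.range (3*n+1), monomial b (d l0 a b) with hP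
    have hPa : ∀ a, aeval y (P a) = ∑ b ∈ Finset.range (3*n+1),
        algebraMap O R (d l0 a b) * y ^ b := by
      intro a
      simp only [hP, map_sum, aeval_monomial]
    have hcoefP : (P a0).coeff b0 = d l0 a0 b0 := by
      simp only [hP, finsetSum_coeff, coeff_monomial]
      rw [Finset.sum_ite_eq' (Finset.range (3*n+1)) b0, if_pos]
      exact Finset.mem_range.mpr (by omega)
    have hd0 : d l0 a0 b0 = (cc (l0, a0, b0)).coeff j0 := by
      simp only [hd, if_pos hp0]
      rw [if_pos (by omega)]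
      congr 1
      omega
    have hsum : aeval y (P 0) + x * aeval y (P 1) + x ^ 2 * aeval y (P 2) = 0 := by
      rw [← hzero', Finset.sum_range_succ, Finset.sum_range_succ, Finset.sum_range_succ,
        Finset.sum_range_zero, zero_add, hPa, hPa, hPa, Finset.mul_sum, Finset.mul_sum]
      congr 1
      · congr 1
        · refine Finset.sum_congr rfl fun b _ => ?_
          ring
        · refine Finset.sum_congr rfl fun b _ => ?_
          ring
      · refine Finset.sum_congr rfl fun b _ => ?_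
        ring
    obtain ⟨h0, h1, h2⟩ := hker _ _ _ hsum
    have hPz : P a0 = 0 := by
      have ha0 : a0 < 3 := hab.1
      interval_cases a0
      · exact h0
      · exact h1
      · exact h2
    apply hne0
    rw [← hd0, ← hcoefP, hPz, coeff_zero]
  · intro j l
    rw [hH0, coeff_C_mul]
    exact Dvd.dvd.mul_left (JJ_Phi (zeta j) (ev j) (hev j) x y h m F (hvan j) ν l) _

end Main

end Crest.Agent.R259.Assembly
end

-- ▼ part R259/AsmFinal
section

/-!
R259 (Nagata): the core theorem from all the pieces.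
-/

set_option autoImplicit false

open Polynomial Crest.AlgGeometry

namespace Crest.Agent.R259.Asm

open scoped LaurentPolynomial in
/-- The data of the elliptic curve at `k[[t]]`. -/
theorem core_aux {k : Type} [Field k] [CharZero k]
    -- cubic relation
    (cubic : ∀ {N B al : ℤ}, N < B + al * N → B + al * N < 2 * N → ∃ t0 t1 t2 : PowerSeries k,
      (th N (B + al * N) al (-1) : RR k) * th N (B + al * N) al 0 * th N (B + al * N) al 1 =
        algebraMap (PowerSeries k) (RR k) t0 * (th N (B + al * N) al 0) ^ 3 +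
        algebraMap (PowerSeries k) (RR k) t1 * (th N (B + al * N) al 1) ^ 3 +
        algebraMap (PowerSeries k) (RR k) t2 * (th N (B + al * N) al (-1)) ^ 3 ∧
      PowerSeries.coeff 0 t0 = 1 ∧ PowerSeries.coeff 0 t1 = 0 ∧ PowerSeries.coeff 0 t2 = 0 ∧
      (t1 ≠ 0 ∨ t2 ≠ 0))
    -- kernel lemma
    (kernel : ∀ (t0 t1 t2 : PowerSeries k) (x y : RR k),
      PowerSeries.coeff 0 t0 = 1 → PowerSeries.coeff 0 t1 = 0 → PowerSeries.coeff 0 t2 = 0 →
      (t1 ≠ 0 ∨ t2 ≠ 0) →
      x * y = algebraMap (PowerSeries k) (RR k) t0 * x ^ 3 + algebraMap (PowerSeries k) (RR k) t1 +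
        algebraMap (PowerSeries k) (RR k) t2 * y ^ 3 →
      PowerSeries.coeff 0 y = LaurentPolynomial.T (-2) →
      ∀ p0 p1 p2 : (PowerSeries k)[X], aeval y p0 + x * aeval y p1 + x ^ 2 * aeval y p2 = 0 →
        p0 = 0 ∧ p1 = 0 ∧ p2 = 0)
    {r n m : ℕ} (hr : 10 ≤ r) (hn : 1 ≤ n) (hm : 1 ≤ m) (h : 9 * n ^ 2 ≤ r * m ^ 2)
    (z : Fin r → kˣ) (hz : Function.Injective z) :
    ∃ p : Fin r → Fin 2 → (PowerSeries k)[X],
      ∀ F : MvPolynomial (Fin 2) (PowerSeries k)[X], F.totalDegree ≤ 3 * n →
        (∀ i, VanishesToOrder F (p i) m) → F = 0 := by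
  obtain ⟨al, hal1, hal2⟩ := exists_al (N := 6 * (n : ℤ) ^ 2) (B := 2 * n * r * m - 1)
    (by positivity) (not_dvd_NB n r m)
  set N : ℤ := 6 * (n : ℤ) ^ 2 with hN
  set B : ℤ := 2 * n * r * m - 1 with hB
  obtain ⟨t0, t1, t2, hcub, ht0, ht1, ht2, hne⟩ := cubic hal1 hal2
  set Xm : RR k := th N (B + al * N) al (-1) with hXm
  set X0 : RR k := th N (B + al * N) al 0 with hX0
  set X1 : RR k := th N (B + al * N) al 1 with hX1
  have QPm : QP N B 1 Xm := QP_th hal1 hal2 (by norm_num) (by norm_num)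
  have QP0 : QP N B 1 X0 := QP_th hal1 hal2 (by norm_num) (by norm_num)
  have QP1 : QP N B 1 X1 := QP_th hal1 hal2 (by norm_num) (by norm_num)
  obtain ⟨u, hu⟩ := (isUnit_th (k := k) (N := N) (Bp := B + al * N) (al := al)
    (e := 1)).exists_right_inv
  rw [← hX1] at hu
  -- the unit w
  set A := algebraMap (PowerSeries k) (RR k) with hA
  have hcA : ∀ t : PowerSeries k, PowerSeries.coeff 0 (A t) =
      LaurentPolynomial.C (PowerSeries.coeff 0 t) := by
    intro t
    rw [hA, algebraMap_eq_emb]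
    simp [emb]
  have hw : IsUnit (X0 * X1 - 3 * A t2 * Xm ^ 2) := by
    rw [PowerSeries.isUnit_iff_constantCoeff]
    have h3 : PowerSeries.constantCoeff (A t2) = 0 := by
      rw [← PowerSeries.coeff_zero_eq_constantCoeff_apply, hcA, ht2, map_zero]
    rw [map_sub, map_mul, map_mul, map_mul, h3]
    rw [← PowerSeries.coeff_zero_eq_constantCoeff_apply,
      ← PowerSeries.coeff_zero_eq_constantCoeff_apply, hX0, hX1, coeff_zero_th, coeff_zero_th]
    simp only [mul_zero, zero_mul, sub_zero]
    rw [← LaurentPolynomial.T_add]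
    exact LaurentPolynomial.isUnit_T _
  obtain ⟨w', hw'⟩ := hw.exists_right_inv
  set x : RR k := X0 * u with hx
  set y : RR k := Xm * u with hy
  set hh : RR k := u * w' with hhh
  have hX1x : X1 * x = X0 := by rw [hx]; linear_combination X0 * hu
  have hX1y : X1 * y = Xm := by rw [hy]; linear_combination Xm * hu
  have hg : x * y = A t0 * x ^ 3 + A t1 + A t2 * y ^ 3 := by
    have h3 : X1 ^ 3 * u ^ 3 = 1 := by rw [← mul_pow, hu, one_pow]
    have h4 : x * y = (Xm * X0 * X1) * u ^ 3 := by
      rw [hx, hy]; linear_combination (-X0 * Xm * u ^ 2) * hu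
    rw [h4, hcub, hx, hy]
    linear_combination (A t1) * h3
  have hh3 : hh * (x - 3 * A t2 * y ^ 2) = u ^ 3 := by
    have h5 : x - 3 * A t2 * y ^ 2 = (X0 * X1 - 3 * A t2 * Xm ^ 2) * u ^ 2 := by
      rw [hx, hy]; linear_combination (-X0 * u) * hu
    rw [h5, hhh]
    linear_combination (u ^ 3) * hw'
  have hy0 : PowerSeries.coeff 0 y = LaurentPolynomial.T (-2) := by
    have h1 : PowerSeries.constantCoeff X1 * PowerSeries.constantCoeff u = 1 := by
      rw [← map_mul, hu, map_one]
    rw [← PowerSeries.coeff_zero_eq_constantCoeff_apply, hX1, coeff_zero_th] at h1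
    rw [PowerSeries.coeff_zero_eq_constantCoeff_apply, hy, map_mul,
      ← PowerSeries.coeff_zero_eq_constantCoeff_apply, hXm, coeff_zero_th]
    have h2 : PowerSeries.constantCoeff u = LaurentPolynomial.T (-(al + 1)) := by
      have h3 : (LaurentPolynomial.T (-(al + 1)) : k[T;T⁻¹]) * LaurentPolynomial.T (al + 1) = 1 := by
        rw [← LaurentPolynomial.T_add]; simp
      linear_combination (LaurentPolynomial.T (-(al + 1)) : k[T;T⁻¹]) * h1 -
        PowerSeries.constantCoeff u * h3
    rw [h2, ← LaurentPolynomial.T_add]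
    congr 1
    ring
  have ht0u : IsUnit t0 := by
    rw [PowerSeries.isUnit_iff_constantCoeff, ← PowerSeries.coeff_zero_eq_constantCoeff_apply, ht0]
    exact isUnit_one
  have hker := kernel t0 t1 t2 x y ht0 ht1 ht2 hne hg hy0
  refine ⟨fun j => ![C (evR (z j) x), C (evR (z j) y) + X * C (evR (z j) hh)], ?_⟩
  intro F hdeg hvan
  by_contra hF
  obtain ⟨c, hc1, ⟨i, hi, hci⟩, hc3⟩ := Assembly.assembly x y u hh X1 hu t0 t1 t2 ht0u hg hh3 hker n m
    (fun j => (PowerSeries.C (LaurentPolynomial.T 1 - LaurentPolynomial.C (z j : k)) : RR k))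
    (fun j => evR (z j)) (fun j a => sub_evR_dvd (z j) a) F hF hdeg hvan
  refine hci (asm_end hr hn hm h (fun j => (z j : k)) ?_ ?_ c ?_ hc3 i hi)
  · intro a b hab
    exact hz (Units.ext hab)
  · intro j
    exact (z j).ne_zero
  · intro i hi
    refine Submodule.span_induction (p := fun a _ => QP N B (3 * i) a) ?_ ?_ ?_ ?_ (hc1 i hi)
    · rintro w ⟨a, b, e, habe, rfl⟩
      rw [hX1x, hX1y]
      have := ((QP0.pow a).mul (QPm.pow b)).mul (QP1.pow e)
      convert this using 1
      have : (a : ℤ) + b + e = 3 * i := by exact_mod_cast habe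
      linarith
    · exact QP.zero _
    · intro a b _ _ ha hb
      exact ha.add hb
    · intro a b _ hb
      rw [Algebra.smul_def, algebraMap_eq_emb]
      exact hb.smul a

end Crest.Agent.R259.Asm
end

-- ▼ part R259/Reduce
section

/-!
# R259 (Nagata): reductions

* `vto_iff`, `vto_mul`, `vto_pow`, `vto_prod` : calculus of orders of vanishing over any ring;
* `exists_rows_det_ne_zero` : a family of linear forms with trivial common kernel contains a
  square invertible subsystem;
* `exists_minor` : transfer of "no nonzero curve" from one tuple over one field to the very general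
  tuple;
* `nagata_of_core`.
-/

set_option autoImplicit false

open MvPolynomial Crest.AlgGeometry

namespace Crest.Agent.R259.Reduce

section Vanish

variable {R : Type*} [CommRing R] {σ : Type*}

/-- The shifted polynomial `f (X + a)`. -/
noncomputable def shift (a : σ → R) : MvPolynomial σ R →ₐ[R] MvPolynomial σ R :=
  aeval (fun j => X j + C (a j))

theorem vto_iff (f : MvPolynomial σ R) (a : σ → R) (m : ℕ) :
    VanishesToOrder f a m ↔ ∀ e : σ →₀ ℕ, e.degree < m → coeff e (shift a f) = 0 := by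
  unfold VanishesToOrder
  change (∀ k < m, homogeneousComponent k (shift a f) = 0) ↔ _
  constructor
  · intro h e he
    have := congrArg (coeff e) (h e.degree he)
    rw [coeff_homogeneousComponent] at this
    simpa using this
  · intro h k hk
    ext e
    rw [coeff_homogeneousComponent]
    split_ifs with hek
    · rw [h e (by rw [hek]; exact hk)]; simp
    · simp

theorem vto_zero_order (f : MvPolynomial σ R) (a : σ → R) : VanishesToOrder f a 0 := by
  intro k hk; exact absurd hk (by omega)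

theorem vto_mul {f g : MvPolynomial σ R} {a : σ → R} {m n : ℕ}
    (hf : VanishesToOrder f a m) (hg : VanishesToOrder g a n) :
    VanishesToOrder (f * g) a (m + n) := by
  classical
  rw [vto_iff] at *
  intro e he
  rw [map_mul, coeff_mul]
  refine Finset.sum_eq_zero ?_
  rintro ⟨u, v⟩ huv
  rw [Finset.HasAntidiagonal.mem_antidiagonal] at huv
  have hdeg : u.degree + v.degree = e.degree := by
    rw [← map_add, huv]
  rcases lt_or_ge u.degree m with hu | hu
  · rw [hf u hu, zero_mul]
  · rw [hg v (by omega), mul_zero]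

theorem vto_pow {f : MvPolynomial σ R} {a : σ → R} {m : ℕ}
    (hf : VanishesToOrder f a m) (k : ℕ) : VanishesToOrder (f ^ k) a (k * m) := by
  induction k with
  | zero => simpa using vto_zero_order _ _
  | succ k ih =>
    rw [pow_succ, Nat.succ_mul]
    exact vto_mul ih hf

theorem vto_prod {ι : Type*} (s : Finset ι) (f : ι → MvPolynomial σ R) (a : σ → R) (m : ι → ℕ)
    (h : ∀ i ∈ s, VanishesToOrder (f i) a (m i)) :
    VanishesToOrder (∏ i ∈ s, f i) a (∑ i ∈ s, m i) := by
  classical
  induction s using Finset.induction_on with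
  | empty => simpa using vto_zero_order _ _
  | insert i s hi ih =>
    rw [Finset.prod_insert hi, Finset.sum_insert hi]
    exact vto_mul (h i (Finset.mem_insert_self _ _))
      (ih fun j hj => h j (Finset.mem_insert_of_mem hj))

end Vanish

section Rows

/-- A family of linear forms on `K^J` with trivial common kernel contains `J` many forms with
invertible matrix. -/
theorem exists_rows_det_ne_zero {K : Type*} [Field K] {I J : Type*} [Fintype J] [DecidableEq J]
    (A : I → J → K) (h : ∀ c : J → K, (∀ i, ∑ j, A i j * c j = 0) → c = 0) :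
    ∃ ρ : J → I, (Matrix.of fun j => A (ρ j)).det ≠ 0 := by
  classical
  obtain ⟨κ, a, ha, hsp, hli⟩ := exists_linearIndependent' K A
  -- the span is everything
  have htop : Submodule.span K (Set.range A) = ⊤ := by
    by_contra hne
    obtain ⟨φ, hφ0, hφ⟩ := Submodule.exists_dual_map_eq_bot_of_lt_top
      (lt_top_iff_ne_top.mpr hne) inferInstance
    apply hφ0
    have hφ' : ∀ i, φ (A i) = 0 := by
      intro i
      have : φ (A i) ∈ (Submodule.span K (Set.range A)).map φ :=
        Submodule.mem_map_of_mem (Submodule.subset_span ⟨i, rfl⟩)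
      rw [hφ] at this
      exact (Submodule.mem_bot K).mp this
    have key : ∀ x : J → K, φ x = ∑ j, x j * φ (Pi.single j 1) := by
      intro x
      conv_lhs => rw [← Finset.univ_sum_single x]
      rw [map_sum]
      refine Finset.sum_congr rfl fun j _ => ?_
      have : (Pi.single j (x j) : J → K) = x j • Pi.single j (1 : K) := by
        rw [← Pi.single_smul]; simp
      rw [this, map_smul, smul_eq_mul]
    have hc := h (fun j => φ (Pi.single j 1)) (fun i => by rw [← key]; exact hφ' i)
    ext x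
    simpa using congrFun hc x
  rw [htop] at hsp
  -- basis
  let b : Module.Basis κ K (J → K) := Module.Basis.mk hli (by rw [hsp])
  let e : J ≃ κ := (Pi.basisFun K J).indexEquiv b
  refine ⟨fun j => a (e j), ?_⟩
  have hli2 : LinearIndependent K (fun j => A (a (e j))) := by
    have := hli.comp e e.injective
    exact this
  have hU := (Matrix.linearIndependent_rows_iff_isUnit
    (A := Matrix.of fun j => A (a (e j)))).mp hli2
  rw [Matrix.isUnit_iff_isUnit_det] at hU
  exact hU.ne_zero

end Rows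

section Minor

variable (r : ℕ)

/-- generic coefficient polynomials -/
noncomputable def gen (i : Fin r) (e' e : Fin 2 →₀ ℕ) : MvPolynomial (Fin r × Fin 2) ℤ :=
  coeff e' (e.prod fun j k => (X j + C (X (i, j)) : MvPolynomial (Fin 2)
    (MvPolynomial (Fin r × Fin 2) ℤ)) ^ k)

variable {r}

/-- evaluation of the integral polynomials at a tuple over a field -/
noncomputable def ev {L : Type*} [Field L] (q : Fin r → Fin 2 → L) :
    MvPolynomial (Fin r × Fin 2) ℤ →+* L :=
  eval₂Hom (Int.castRingHom L) (fun ij => q ij.1 ij.2)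

theorem ev_gen {L : Type*} [Field L] (q : Fin r → Fin 2 → L) (i : Fin r) (e' e : Fin 2 →₀ ℕ) :
    ev q (gen r i e' e) = coeff e' (shift (q i) (monomial e (1 : L))) := by
  unfold gen
  rw [← coeff_map]
  congr 1
  rw [shift, aeval_monomial, map_one, one_mul]
  simp only [Finsupp.prod, map_prod, map_pow, map_add, map_X, map_C]
  refine Finset.prod_congr rfl fun j _ => ?_
  simp [ev]

theorem shift_coeff_eq_sum {L : Type*} [Field L] {J : Type*} [Fintype J]
    (q : Fin r → Fin 2 → L) (i : Fin r) (e' : Fin 2 →₀ ℕ) (mon : J → (Fin 2 →₀ ℕ)) (c : J → L) :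
    coeff e' (shift (q i) (∑ j, monomial (mon j) (c j)))
      = ∑ j, ev q (gen r i e' (mon j)) * c j := by
  rw [map_sum, coeff_sum]
  refine Finset.sum_congr rfl fun j _ => ?_
  rw [ev_gen]
  have : (monomial (mon j) (c j) : MvPolynomial (Fin 2) L) = c j • monomial (mon j) (1 : L) := by
    rw [smul_monomial, smul_eq_mul, mul_one]
  rw [this, map_smul, coeff_smul, smul_eq_mul, mul_comm]

section Mon

/-- monomials of degree at most `d` -/
abbrev Mon (d : ℕ) : Type := {e : Fin 2 →₀ ℕ // e.degree ≤ d}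

noncomputable instance instFintypeMon (d : ℕ) : Fintype (Mon d) :=
  (Finsupp.finite_of_degree_le (σ := Fin 2) d).fintype

/-- the polynomial with given coefficients -/
noncomputable def monSum {K : Type*} [Field K] {d : ℕ} (c : Mon d → K) : MvPolynomial (Fin 2) K :=
  ∑ e : Mon d, monomial (e : Fin 2 →₀ ℕ) (c e)

variable {K : Type*} [Field K] {d : ℕ}

theorem totalDegree_monSum (c : Mon d → K) : (monSum c).totalDegree ≤ d := by
  refine totalDegree_finsetSum_le fun e _ => ?_
  refine (totalDegree_monomial_le _ _).trans ?_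
  have h : (e : Fin 2 →₀ ℕ).degree ≤ d := e.2
  simpa [Finsupp.sum, Finsupp.degree_apply] using h

theorem coeff_monSum (c : Mon d → K) (e : Mon d) :
    coeff (e : Fin 2 →₀ ℕ) (monSum c) = c e := by
  classical
  rw [monSum, coeff_sum, Finset.sum_eq_single e]
  · simp
  · intro b _ hb
    rw [coeff_monomial, if_neg]
    intro hbe; exact hb (Subtype.ext hbe)
  · intro he; exact absurd (Finset.mem_univ _) he

theorem coeff_eq_zero_of_lt {f : MvPolynomial (Fin 2) K} (hf : f.totalDegree ≤ d)
    {e : Fin 2 →₀ ℕ} (he : ¬ e.degree ≤ d) : coeff e f = 0 := by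
  apply coeff_eq_zero_of_totalDegree_lt
  have : f.totalDegree < e.degree := lt_of_le_of_lt hf (not_le.mp he)
  simpa [Finsupp.degree_apply, Finsupp.sum] using this

theorem eq_monSum {f : MvPolynomial (Fin 2) K} (hf : f.totalDegree ≤ d) :
    f = monSum (fun e : Mon d => coeff (e : Fin 2 →₀ ℕ) f) := by
  ext e
  by_cases he : e.degree ≤ d
  · exact (coeff_monSum (fun e : Mon d => coeff (e : Fin 2 →₀ ℕ) f) ⟨e, he⟩).symm
  · rw [coeff_eq_zero_of_lt hf he, coeff_eq_zero_of_lt (totalDegree_monSum _) he]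

end Mon

/-- Transfer: if over one field there is one tuple with no nonzero curve, there is a nonzero integral
polynomial `g` such that there is no nonzero curve for any tuple (over any field) with
`g (p) ≠ 0`. -/
theorem exists_minor {L : Type*} [Field L] (q : Fin r → Fin 2 → L) (d : ℕ)
    (m : Fin r → ℕ)
    (h : ∀ f : MvPolynomial (Fin 2) L, f.totalDegree ≤ d →
      (∀ i, VanishesToOrder f (q i) (m i)) → f = 0) :
    ∃ g : MvPolynomial (Fin r × Fin 2) ℤ, g ≠ 0 ∧
      ∀ p : Fin r → Fin 2 → ℂ, ev p g ≠ 0 → ∀ f : MvPolynomial (Fin 2) ℂ, f.totalDegree ≤ d →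
        (∀ i, VanishesToOrder f (p i) (m i)) → f = 0 := by
  classical
  let I := {x : Fin r × (Fin 2 →₀ ℕ) // x.2.degree < m x.1}
  let A : I → Mon d → MvPolynomial (Fin r × Fin 2) ℤ :=
    fun x e => gen r x.1.1 x.1.2 e
  obtain ⟨ρ, hρ⟩ := exists_rows_det_ne_zero (fun x e => ev q (A x e)) (by
    intro c hc
    have hf := h (monSum c) (totalDegree_monSum c) (by
      intro i
      rw [vto_iff]
      intro e' he'
      rw [monSum, shift_coeff_eq_sum]
      exact hc ⟨(i, e'), he'⟩)
    funext e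
    have := coeff_monSum c e
    rw [hf] at this
    simpa using this.symm)
  refine ⟨(Matrix.of fun j => A (ρ j)).det, ?_, ?_⟩
  · intro h0
    apply hρ
    have h1 : (Matrix.of fun j => fun e => ev q (A (ρ j) e))
        = (ev q).mapMatrix (Matrix.of fun j => A (ρ j)) := by
      ext a b; rfl
    rw [h1, ← RingHom.map_det, h0, map_zero]
  · intro p hp f hfd hf
    have hdet : ((ev p).mapMatrix (Matrix.of fun j => A (ρ j))).det ≠ 0 := by
      rw [← RingHom.map_det]; exact hp
    have hker : ((ev p).mapMatrix (Matrix.of fun j => A (ρ j))).mulVec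
        (fun e => coeff (e : Fin 2 →₀ ℕ) f) = 0 := by
      funext j
      have h1 := (vto_iff f (p (ρ j).1.1) (m (ρ j).1.1)).mp (hf _) (ρ j).1.2 (ρ j).2
      rw [eq_monSum hfd, monSum, shift_coeff_eq_sum] at h1
      simpa [Matrix.mulVec, dotProduct, A] using h1
    have hc0 := Matrix.eq_zero_of_mulVec_eq_zero hdet hker
    rw [eq_monSum hfd, monSum]
    refine Finset.sum_eq_zero fun e _ => ?_
    have := congrFun hc0 e
    simp only [Pi.zero_apply] at this
    rw [this, monomial_zero]

end Minor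

section Final

/-- there is a tuple over `ℂ` at which no nonzero integral polynomial vanishes -/
theorem exists_very_general (r : ℕ) : ∃ p : Fin r → Fin 2 → ℂ,
    ∀ g : MvPolynomial (Fin r × Fin 2) ℤ, g ≠ 0 → ev p g ≠ 0 := by
  obtain ⟨s, hs⟩ := exists_isTranscendenceBasis ℤ ℂ
  have hcard : Cardinal.mk ℂ = Cardinal.mk s := by
    refine IsAlgClosed.cardinal_eq_cardinal_transcendence_basis_of_aleph0_lt' _ hs ?_ ?_
    · exact Cardinal.mk_le_aleph0
    · rw [Cardinal.mk_complex]; exact Cardinal.aleph0_lt_continuum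
  have hinf : Infinite s := by
    rw [Cardinal.infinite_iff, ← hcard, Cardinal.mk_complex]
    exact Cardinal.aleph0_le_continuum
  obtain ⟨φ⟩ : Nonempty (Fin r × Fin 2 ↪ s) := by
    exact ⟨(finProdFinEquiv.toEmbedding.trans (Fin.valEmbedding)).trans (Infinite.natEmbedding s)⟩
  have hind : AlgebraicIndependent ℤ (fun x : Fin r × Fin 2 => ((φ x : s) : ℂ)) :=
    hs.1.comp φ φ.injective
  refine ⟨fun i j => ((φ (i, j) : s) : ℂ), fun g hg h0 => hg ?_⟩
  rw [algebraicIndependent_iff] at hind
  apply hind g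
  rw [← h0]
  rfl

/-- The multiplicity bookkeeping: cyclic shifts and cube. -/
theorem exists_shift {L : Type*} [Field L] {r : ℕ} (hr : 1 ≤ r) (p : Fin r → Fin 2 → L) (d : ℕ)
    (m : Fin r → ℕ)
    (hp : ∀ F : MvPolynomial (Fin 2) L, F.totalDegree ≤ 3 * (r * d) →
      (∀ i, VanishesToOrder F (p i) (3 * ∑ i, m i)) → F = 0) :
    ∃ q : Fin r → Fin 2 → L, ∀ f : MvPolynomial (Fin 2) L, f.totalDegree ≤ d →
      (∀ i, VanishesToOrder f (q i) (m i)) → f = 0 := by
  classical
  have hr0 : NeZero r := ⟨by omega⟩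
  by_contra hcon
  push Not at hcon
  choose f hfd hfv hf0 using fun s : Fin r => hcon (fun i => p (i + s))
  have h1 : (∏ s : Fin r, (f s) ^ 3) = 0 := by
    apply hp
    · refine (totalDegree_finsetProd _ _).trans ?_
      calc ∑ s : Fin r, ((f s) ^ 3).totalDegree ≤ ∑ _s : Fin r, 3 * d :=
            Finset.sum_le_sum fun s _ => (totalDegree_pow _ _).trans
              (Nat.mul_le_mul_left 3 (hfd s))
        _ = 3 * (r * d) := by simp; ring
    · intro j
      have h2 : 3 * ∑ i, m i = ∑ s : Fin r, 3 * m (j - s) := by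
        rw [← Finset.mul_sum]
        congr 1
        exact (Fintype.sum_equiv (Equiv.subLeft j) _ _ (fun s => rfl)).symm
      rw [h2]
      refine vto_prod _ _ _ _ fun s _ => ?_
      have h3 := hfv s (j - s)
      simp only [sub_add_cancel] at h3
      exact vto_pow h3 3
  rw [Finset.prod_eq_zero_iff] at h1
  obtain ⟨s, _, hs⟩ := h1
  exact hf0 s (pow_eq_zero_iff (by norm_num) |>.mp hs)

/-- **Reduction of Nagata's conjecture to the uniform statement over one field.** -/
theorem nagata_of_core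
    (core : ∀ r n m : ℕ, 10 ≤ r → 1 ≤ n → 1 ≤ m → 9 * n ^ 2 ≤ r * m ^ 2 →
      ∃ (L : Type) (_ : Field L) (p : Fin r → Fin 2 → L),
        ∀ F : MvPolynomial (Fin 2) L, F.totalDegree ≤ 3 * n →
          (∀ i, VanishesToOrder F (p i) m) → F = 0)
    (r : ℕ) (hr : 10 ≤ r) :
    ∃ S : Set (MvPolynomial (Fin r × Fin 2) ℂ),
      S.Countable ∧ (∀ g ∈ S, g ≠ 0) ∧
      (∃ p : Fin r → Fin 2 → ℂ, ∀ g ∈ S,
        MvPolynomial.eval (fun ij : Fin r × Fin 2 => p ij.1 ij.2) g ≠ 0) ∧
      ∀ p : Fin r → Fin 2 → ℂ, (∀ g ∈ S,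
          MvPolynomial.eval (fun ij : Fin r × Fin 2 => p ij.1 ij.2) g ≠ 0) →
        ∀ (d : ℕ) (f : MvPolynomial (Fin 2) ℂ) (m : Fin r → ℕ),
          1 ≤ d → f ≠ 0 → f.totalDegree ≤ d →
          (∀ i, Crest.AlgGeometry.VanishesToOrder f (p i) (m i)) →
          (∑ i, (m i : ℝ)) < (d : ℝ) * Real.sqrt (r : ℝ) := by
  have hcount : Countable (MvPolynomial (Fin r × Fin 2) ℤ) := by
    rw [← Cardinal.mk_le_aleph0_iff]
    refine (MvPolynomial.cardinalMk_le_max (σ := Fin r × Fin 2) (R := ℤ)).trans ?_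
    exact max_le (max_le Cardinal.mk_le_aleph0 Cardinal.mk_le_aleph0) le_rfl
  have hev : ∀ (p : Fin r → Fin 2 → ℂ) (g : MvPolynomial (Fin r × Fin 2) ℤ),
      MvPolynomial.eval (fun ij : Fin r × Fin 2 => p ij.1 ij.2) (map (Int.castRingHom ℂ) g)
        = ev p g := by
    intro p g
    rw [eval_map]
    rfl
  refine ⟨(fun g : MvPolynomial (Fin r × Fin 2) ℤ => map (Int.castRingHom ℂ) g) '' {g | g ≠ 0},
    (Set.to_countable _).image _, ?_, ?_, ?_⟩
  · rintro _ ⟨g, hg, rfl⟩ h0
    apply hg
    apply map_injective (Int.castRingHom ℂ) (RingHom.injective_int _)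
    rw [map_zero]
    exact h0
  · obtain ⟨p, hp⟩ := exists_very_general r
    refine ⟨p, ?_⟩
    rintro _ ⟨g, hg, rfl⟩
    rw [hev]
    exact hp g hg
  · intro p hp d f m hd hf0 hfd hfv
    by_contra hlt
    rw [not_lt] at hlt
    -- numerics
    have hrpos : (0 : ℝ) < r := by exact_mod_cast (by omega : 0 < r)
    have hsq : (d : ℝ) ^ 2 * r ≤ ((∑ i, m i : ℕ) : ℝ) ^ 2 := by
      have h1 : (d : ℝ) * Real.sqrt r ≤ ((∑ i, m i : ℕ) : ℝ) := by
        push_cast; exact hlt
      have h2 : 0 ≤ (d : ℝ) * Real.sqrt r := by positivity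
      calc (d : ℝ) ^ 2 * r = ((d : ℝ) * Real.sqrt r) ^ 2 := by
            rw [mul_pow, Real.sq_sqrt hrpos.le]
        _ ≤ _ := pow_le_pow_left₀ h2 h1 2
    have hsqN : d ^ 2 * r ≤ (∑ i, m i) ^ 2 := by exact_mod_cast hsq
    have hMpos : 1 ≤ ∑ i, m i := by
      by_contra h
      have h0 : ∑ i, m i = 0 := by omega
      rw [h0] at hsqN
      have : 0 < d ^ 2 * r := by positivity
      omega
    obtain ⟨L, _, q0, hq0⟩ := core r (r * d) (3 * ∑ i, m i) hr
      (Nat.one_le_iff_ne_zero.mpr (by positivity)) (by omega) (by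
        have : r * (d ^ 2 * r) ≤ r * (∑ i, m i) ^ 2 := Nat.mul_le_mul_left r hsqN
        nlinarith [this])
    obtain ⟨q, hq⟩ := exists_shift (by omega) q0 d m hq0
    obtain ⟨g, hg0, hg⟩ := exists_minor q d m hq
    have hpg : ev p g ≠ 0 := by
      rw [← hev]
      exact hp _ ⟨g, hg0, rfl⟩
    exact hf0 (hg p hpg f hfd hfv)

end Final

end Crest.Agent.R259.Reduce
end

-- ▼ part R259/Cubic
section

/-!
# R259 (Nagata), piece CUBIC

Abstract form: four elements of `M_3` with exponents divisible by `3` satisfy an `O`-linear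
relation; application to the theta series `X_{-1}, X_0, X_1`.
-/

set_option autoImplicit false

namespace Crest.Agent.R259.Cubic

open scoped LaurentPolynomial
open LaurentPolynomial

variable {k : Type*} [Field k]

/-- the `x`-th coefficient series -/
noncomputable def xc (x : ℤ) (a : RR k) : PowerSeries k :=
  PowerSeries.mk fun s => (PowerSeries.coeff s a).coeff x

lemma coeff_xc (x : ℤ) (a : RR k) (s : ℕ) :
    PowerSeries.coeff s (xc x a) = (PowerSeries.coeff s a).coeff x := by
  simp [xc]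

lemma xc_add (x : ℤ) (a b : RR k) :
    xc x (a + b) = xc x a + xc x b := by
  ext s
  simp only [coeff_xc, map_add, AddMonoidAlgebra.coeff_add, Finsupp.add_apply]

lemma C_mul_apply (c : k) (f : LaurentPolynomial k) (x : ℤ) :
    (LaurentPolynomial.C c * f).coeff x = c * f.coeff x := by
  rw [← LaurentPolynomial.smul_eq_C_mul]
  simp

lemma xc_mul (x : ℤ) (c : PowerSeries k) (a : RR k) :
    xc x (emb c * a) = c * xc x a := by
  ext s
  rw [coeff_xc, PowerSeries.coeff_mul, PowerSeries.coeff_mul, AddMonoidAlgebra.coeff_sum,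
    Finsupp.finsetSum_apply]
  refine Finset.sum_congr rfl fun p _ => ?_
  rw [emb, PowerSeries.coeff_map, C_mul_apply, coeff_xc]

lemma exists_of_coef_mul_ne {a b : RR k} {x s : ℤ} (h : coef (a * b) x s ≠ 0) :
    ∃ y u : ℤ, coef a y u ≠ 0 ∧ coef b (x - y) (s - u) ≠ 0 := by
  rw [coef_mul] at h
  obtain ⟨p, hp⟩ : ∃ p : ℤ × ℤ, coef a p.1 p.2 * coef b (x - p.1) (s - p.2) ≠ 0 := by
    by_contra hcon
    push Not at hcon
    exact h (finsum_eq_zero_of_forall_eq_zero hcon)
  exact ⟨p.1, p.2, left_ne_zero_of_mul hp, right_ne_zero_of_mul hp⟩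

/-- If the coefficient series of `a ∈ M_3` (all of whose exponents are divisible by 3) vanish
at three consecutive classes, then `a = 0`. -/
lemma eq_zero_of_xc {N B y0 : ℤ} {a : RR k} (hQ : QP N B 3 a) (hcl : Cls y0 a)
    (h1 : xc (y0 - 3) a = 0) (h2 : xc y0 a = 0) (h3 : xc (y0 + 3) a = 0) : a = 0 := by
  have hup : ∀ x, (∀ s, coef a x s = 0) → ∀ s, coef a (x + 3 * 3) s = 0 := by
    intro x hx s
    have := hQ x (s - N * x - 3 * B)
    rw [hx] at this
    rw [← this]
    congr 1
    ring
  have hdown : ∀ x, (∀ s, coef a (x + 3 * 3) s = 0) → ∀ s, coef a x s = 0 := by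
    intro x hx s
    rw [← hQ x s]
    exact hx _
  have hiter : ∀ (x : ℤ), (∀ s, coef a x s = 0) → ∀ q : ℤ, ∀ s, coef a (x + 9 * q) s = 0 := by
    intro x hx q
    induction q using Int.induction_on with
    | zero => simpa using hx
    | succ i ih =>
      have := hup _ ih
      intro s
      rw [← this s]
      congr 1
      ring
    | pred i ih =>
      apply hdown
      intro s
      rw [← ih s]
      congr 1
      ring
  have hxc : ∀ x, xc x a = 0 → ∀ s, coef a x s = 0 := by
    intro x hx s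
    rcases lt_or_ge s 0 with hs | hs
    · exact coef_of_neg a x hs
    · lift s to ℕ using hs
      rw [coef_nat, ← coeff_xc, hx]
      simp
  apply coef_ext
  intro x s
  rw [coef_zero]
  by_contra hne
  have h3x := hcl x s hne
  apply hne
  obtain ⟨q, r, hr, hxr⟩ : ∃ q r : ℤ, (r = -3 ∨ r = 0 ∨ r = 3) ∧ x = y0 + r + 9 * q := by
    have h9 : (x - y0) % 9 = 0 ∨ (x - y0) % 9 = 3 ∨ (x - y0) % 9 = 6 := by omega
    rcases h9 with h | h | h
    · exact ⟨(x - y0) / 9, 0, by simp, by omega⟩
    · exact ⟨(x - y0) / 9, 3, by simp, by omega⟩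
    · exact ⟨(x - y0) / 9 + 1, -3, by simp, by omega⟩
  subst hxr
  rcases hr with rfl | rfl | rfl
  · exact hiter _ (hxc _ (by simpa [sub_eq_add_neg] using h1)) q s
  · exact hiter _ (hxc _ (by simpa using h2)) q s
  · exact hiter _ (hxc _ h3) q s

/-- A nonzero vector over `O` annihilated by a torsion-free linear condition can be divided by a
power of `t` until some constant coefficient is nonzero. -/
lemma exists_unit_relation {J : Type*} [Fintype J] {M : Type*} [AddCommGroup M]
    [Module (PowerSeries k) M] (hM : ∀ m : M, (PowerSeries.X : PowerSeries k) • m = 0 → m = 0)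
    (v : J → M) (g : J → PowerSeries k) (hg : ∑ i, g i • v i = 0) (i0 : J) (hi0 : g i0 ≠ 0) :
    ∃ g' : J → PowerSeries k, ∑ i, g' i • v i = 0 ∧
      ∃ i, PowerSeries.constantCoeff (g' i) ≠ 0 := by
  classical
  -- induct on the first nonzero coefficient of `g i0`
  have key : ∀ (n : ℕ) (g : J → PowerSeries k), ∑ i, g i • v i = 0 →
      PowerSeries.coeff n (g i0) ≠ 0 → ∃ g' : J → PowerSeries k, ∑ i, g' i • v i = 0 ∧
      ∃ i, PowerSeries.constantCoeff (g' i) ≠ 0 := by
    intro n
    induction n with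
    | zero =>
      intro g hg hn
      exact ⟨g, hg, i0, by simpa using hn⟩
    | succ n ih =>
      intro g hg hn
      by_cases h0 : ∃ i, PowerSeries.constantCoeff (g i) ≠ 0
      · exact ⟨g, hg, h0⟩
      · push Not at h0
        have hdiv : ∀ i, ∃ g' : PowerSeries k, g i = PowerSeries.X * g' := by
          intro i
          exact PowerSeries.X_dvd_iff.mpr (h0 i)
        choose g' hg' using hdiv
        apply ih g'
        · apply hM
          rw [Finset.smul_sum, ← hg]
          refine Finset.sum_congr rfl fun i _ => ?_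
          rw [smul_smul, ← hg']
        · rw [hg' i0, PowerSeries.coeff_succ_X_mul] at hn
          exact hn
  obtain ⟨n, hn⟩ : ∃ n, PowerSeries.coeff n (g i0) ≠ 0 := by
    by_contra h
    push Not at h
    exact hi0 (PowerSeries.ext h)
  exact key n g hg hn

/-- Four vectors of `O^3` are linearly dependent. -/
lemma exists_relation (v : Fin 4 → Fin 3 → PowerSeries k) :
    ∃ g : Fin 4 → PowerSeries k, ∑ i, g i • v i = 0 ∧
      ∃ i, PowerSeries.constantCoeff (g i) ≠ 0 := by
  have hdep : ¬ LinearIndependent (PowerSeries k) v := by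
    intro h
    have := h.fintype_card_le_finrank
    simp at this
  rw [Fintype.not_linearIndependent_iff] at hdep
  obtain ⟨g, hg, i, hi⟩ := hdep
  refine exists_unit_relation ?_ v g hg i hi
  intro m hm
  funext j
  have := congrFun hm j
  simp only [Pi.smul_apply, smul_eq_mul, Pi.zero_apply, mul_eq_zero] at this
  rcases this with h | h
  · exact absurd h PowerSeries.X_ne_zero
  · simpa using h

/-- The cubic relation, abstract form. -/
theorem cubic_relation_abstract {N B y0 : ℤ} (p : Fin 4 → RR k)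
    (hQ : ∀ i, QP N B 3 (p i)) (hcl : ∀ i, Cls y0 (p i))
    (h0 : PowerSeries.constantCoeff (p 0) = T y0)
    (h1 : PowerSeries.constantCoeff (p 1) = T y0)
    (h2 : PowerSeries.constantCoeff (p 2) = T (y0 + 3))
    (h3 : PowerSeries.constantCoeff (p 3) = T (y0 - 3)) :
    ∃ τ0 τ1 τ2 : PowerSeries k, PowerSeries.constantCoeff τ0 = 1 ∧
      PowerSeries.constantCoeff τ1 = 0 ∧ PowerSeries.constantCoeff τ2 = 0 ∧
      p 0 = emb τ0 * p 1 + emb τ1 * p 2 + emb τ2 * p 3 := by
  obtain ⟨g, hg, i, hi⟩ := exists_relation (k := k)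
    (fun i j => xc (y0 + 3 * ((j : ℕ) : ℤ) - 3) (p i))
  -- the combination vanishes in `R`
  have hsum : emb (g 0) * p 0 + emb (g 1) * p 1 + emb (g 2) * p 2 + emb (g 3) * p 3 = 0 := by
    have hxcs : ∀ j : Fin 3, xc (y0 + 3 * ((j : ℕ) : ℤ) - 3)
        (emb (g 0) * p 0 + emb (g 1) * p 1 + emb (g 2) * p 2 + emb (g 3) * p 3) = 0 := by
      intro j
      have := congrFun hg j
      simp only [Finset.sum_apply, Pi.smul_apply, smul_eq_mul, Pi.zero_apply,
        Fin.sum_univ_four] at this
      rw [xc_add, xc_add, xc_add, xc_mul, xc_mul, xc_mul, xc_mul]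
      exact this
    refine eq_zero_of_xc (N := N) (B := B) (y0 := y0) ?_ ?_ ?_ ?_ ?_
    · exact ((((hQ 0).smul _).add ((hQ 1).smul _)).add ((hQ 2).smul _)).add ((hQ 3).smul _)
    · exact ((((hcl 0).smul _).add ((hcl 1).smul _)).add ((hcl 2).smul _)).add ((hcl 3).smul _)
    · have := hxcs 0
      simpa using this
    · have := hxcs 1
      simpa using this
    · have := hxcs 2
      have e : y0 + 3 * (((2 : Fin 3) : ℕ) : ℤ) - 3 = y0 + 3 := by
        norm_num
        ring
      rwa [e] at this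
  -- reduce mod `t`
  have hc := congrArg (PowerSeries.constantCoeff) hsum
  simp only [map_add, map_mul, h0, h1, h2, h3, map_zero] at hc
  have hemb : ∀ c : PowerSeries k, PowerSeries.constantCoeff (emb c) =
      LaurentPolynomial.C (PowerSeries.constantCoeff c) := by
    intro c
    rw [emb, ← PowerSeries.coeff_zero_eq_constantCoeff_apply, PowerSeries.coeff_map,
      PowerSeries.coeff_zero_eq_constantCoeff_apply]
  rw [hemb, hemb, hemb, hemb] at hc
  have hcx : ∀ x : ℤ, PowerSeries.constantCoeff (g 0) * (if y0 = x then 1 else 0) +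
      PowerSeries.constantCoeff (g 1) * (if y0 = x then 1 else 0) +
      PowerSeries.constantCoeff (g 2) * (if y0 + 3 = x then 1 else 0) +
      PowerSeries.constantCoeff (g 3) * (if y0 - 3 = x then 1 else 0) = 0 := by
    intro x
    have := congrArg (fun f : LaurentPolynomial k => f.coeff x) hc
    simpa only [AddMonoidAlgebra.coeff_add, Finsupp.add_apply, C_mul_apply,
      LaurentPolynomial.T_apply, AddMonoidAlgebra.coeff_zero, Finsupp.zero_apply] using this
  have e3 : PowerSeries.constantCoeff (g 2) = 0 := by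
    have := hcx (y0 + 3)
    rw [if_neg (by omega), if_pos rfl, if_neg (by omega)] at this
    simpa using this
  have e4 : PowerSeries.constantCoeff (g 3) = 0 := by
    have := hcx (y0 - 3)
    rw [if_neg (by omega), if_neg (by omega), if_pos rfl] at this
    simpa using this
  have e12 : PowerSeries.constantCoeff (g 0) + PowerSeries.constantCoeff (g 1) = 0 := by
    have := hcx y0
    simpa using this
  have hg0 : PowerSeries.constantCoeff (g 0) ≠ 0 := by
    intro h
    rw [h, zero_add] at e12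
    fin_cases i <;> simp_all
  -- scale
  have hinv : g 0 * (g 0)⁻¹ = 1 := PowerSeries.mul_inv_cancel _ hg0
  have hcinv : PowerSeries.constantCoeff (g 0)⁻¹ = (PowerSeries.constantCoeff (g 0))⁻¹ :=
    PowerSeries.constantCoeff_inv _
  refine ⟨-(g 0)⁻¹ * g 1, -(g 0)⁻¹ * g 2, -(g 0)⁻¹ * g 3, ?_, ?_, ?_, ?_⟩
  · rw [map_mul, map_neg, hcinv, eq_neg_of_add_eq_zero_right e12]
    field_simp
  · rw [map_mul, e3, mul_zero]
  · rw [map_mul, e4, mul_zero]
  · have h1' : emb (g 0)⁻¹ * emb (g 0) = 1 := by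
      rw [← map_mul, mul_comm, hinv, map_one]
    have : p 0 = emb (g 0)⁻¹ * (emb (g 0) * p 0) := by
      rw [← mul_assoc, h1', one_mul]
    rw [this]
    have hh : emb (g 0) * p 0 = -(emb (g 1) * p 1 + emb (g 2) * p 2 + emb (g 3) * p 3) := by
      linear_combination hsum
    rw [hh]
    simp only [map_mul, map_neg]
    ring

/-- `X_{-1} X_1` is not an `O`-multiple of `X_0^2`. -/
theorem mul_ne {N B' al : ℤ} (hN : 0 < N) (Q : ℤ → ℤ → ℤ)
    (hQf : ∀ e l, 2 * Q e l = 3 * N * (l * (l - 1)) + 2 * (l * (N * e + B')))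
    (X : ℤ → RR k)
    (hX1 : ∀ e l, -1 ≤ e → e ≤ 1 → coef (X e) (al + e + 3 * l) (Q e l) = 1)
    (hX0 : ∀ e x s, -1 ≤ e → e ≤ 1 → coef (X e) x s ≠ 0 → ∃ l, x = al + e + 3 * l ∧ s = Q e l)
    (τ : PowerSeries k) : X (-1) * X 1 ≠ emb τ * (X 0 * X 0) := by
  intro h
  have hl : coef (X (-1) * X 1) (2 * al + 3) (B' - N) = 1 := by
    rw [coef_mul, finsum_eq_single _ (al + 2, B' - N)]
    · have e1 := hX1 (-1) 1 (by norm_num) (by norm_num)
      have e2 := hX1 1 0 (by norm_num) (by norm_num)
      have q1 : Q (-1) 1 = B' - N := by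
        have := hQf (-1) 1
        linarith
      have q2 : Q 1 0 = 0 := by
        have := hQf 1 0
        linarith
      rw [q1] at e1
      rw [q2] at e2
      have a1 : al + -1 + 3 * 1 = al + 2 := by ring
      have a2 : al + 1 + 3 * 0 = 2 * al + 3 - (al + 2) := by ring
      rw [a1] at e1
      rw [a2] at e2
      simp only [sub_self]
      rw [e1, e2, mul_one]
    · rintro ⟨y, u⟩ hne
      by_contra hc
      have hc1 := left_ne_zero_of_mul hc
      have hc2 := right_ne_zero_of_mul hc
      obtain ⟨l, hy, hu⟩ := hX0 (-1) _ _ (by norm_num) (by norm_num) hc1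
      obtain ⟨l', hy', hu'⟩ := hX0 1 _ _ (by norm_num) (by norm_num) hc2
      simp only at hy hu hy' hu'
      have hl' : l' = 1 - l := by omega
      subst hl'
      have q1 := hQf (-1) l
      have q2 := hQf 1 (1 - l)
      have q3 : N * ((3 * l - 2) * (l - 1)) = 0 := by
        have : 2 * (B' - N) = 2 * Q (-1) l + 2 * Q 1 (1 - l) := by linarith
        rw [q1, q2] at this
        nlinarith
      have q4 : (3 * l - 2) * (l - 1) = 0 := by
        rcases mul_eq_zero.mp q3 with h' | h'
        · omega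
        · exact h'
      have q5 : l = 1 := by
        rcases mul_eq_zero.mp q4 with h' | h' <;> omega
      subst q5
      apply hne
      have q1' : Q (-1) 1 = B' - N := by linarith
      rw [Prod.mk.injEq]
      constructor
      · omega
      · rw [hu, q1']
  have hr : coef (emb τ * (X 0 * X 0)) (2 * al + 3) (B' - N) = 0 := by
    by_contra hne
    obtain ⟨y, u, h1, h2⟩ := exists_of_coef_mul_ne hne
    rw [coef_emb] at h1
    simp only [ne_eq, ite_eq_right_iff, Classical.not_imp] at h1
    obtain ⟨⟨hu, hy⟩, -⟩ := h1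
    subst hy
    obtain ⟨y', u', h3, h4⟩ := exists_of_coef_mul_ne h2
    obtain ⟨l, hy, hu1⟩ := hX0 0 _ _ (by norm_num) (by norm_num) h3
    obtain ⟨l', hy', hu2⟩ := hX0 0 _ _ (by norm_num) (by norm_num) h4
    have hl' : l' = 1 - l := by omega
    subst hl'
    have q1 := hQf 0 l
    have q2 := hQf 0 (1 - l)
    have q3 : B' - N - u = 3 * N * (l * (l - 1)) + B' := by
      have : 2 * (B' - N - u) = 2 * Q 0 l + 2 * Q 0 (1 - l) := by linarith
      rw [q1, q2] at this
      nlinarith
    have q4 : 0 ≤ l * (l - 1) := by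
      rcases le_or_gt l 0 with h' | h'
      · nlinarith
      · nlinarith
    nlinarith [mul_nonneg hN.le q4]
  rw [h, hr] at hl
  exact zero_ne_one hl

/-- CUBIC: the relation between the theta series `X_e = th N (B + al N) al e`. -/
theorem cubic {N B al : ℤ} (h1 : N < B + al * N) (h2 : B + al * N < 2 * N) :
    ∃ τ0 τ1 τ2 : PowerSeries k, PowerSeries.constantCoeff τ0 = 1 ∧
      PowerSeries.constantCoeff τ1 = 0 ∧ PowerSeries.constantCoeff τ2 = 0 ∧
      ¬ (τ1 = 0 ∧ τ2 = 0) ∧
      (th N (B + al * N) al (-1) * th N (B + al * N) al 0 * th N (B + al * N) al 1 : RR k) =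
        emb τ0 * th N (B + al * N) al 0 ^ 3 + emb τ1 * th N (B + al * N) al 1 ^ 3
          + emb τ2 * th N (B + al * N) al (-1) ^ 3 := by
  have hN : 0 < N := by linarith
  have hc0 : ∀ e, PowerSeries.constantCoeff (th N (B + al * N) al e : RR k) = T (al + e) := by
    intro e
    rw [← PowerSeries.coeff_zero_eq_constantCoeff_apply, coeff_zero_th]
  have hQP : ∀ e, -1 ≤ e → e ≤ 1 → QP N B 1 (th N (B + al * N) al e : RR k) :=
    fun e he1 he2 => QP_th h1 h2 he1 he2
  have hpow : ∀ e, -1 ≤ e → e ≤ 1 → QP N B 3 (th N (B + al * N) al e ^ 3 : RR k) := by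
    intro e he1 he2
    have := (hQP e he1 he2).pow 3
    convert this using 1
    norm_num
  have hcl : ∀ e, Cls (3 * al) (th N (B + al * N) al e ^ 3 : RR k) := by
    intro e
    have := (Cls_th (k := k) (N := N) (Bp := B + al * N) (al := al) (e := e)).pow 3
    refine this.congr ?_
    push_cast
    exact ⟨e, by ring⟩
  set p : Fin 4 → RR k := ![th N (B + al * N) al (-1) * th N (B + al * N) al 0 *
    th N (B + al * N) al 1, th N (B + al * N) al 0 ^ 3, th N (B + al * N) al 1 ^ 3,
    th N (B + al * N) al (-1) ^ 3] with hp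
  obtain ⟨τ0, τ1, τ2, hτ0, hτ1, hτ2, hrel⟩ := cubic_relation_abstract (k := k) (N := N) (B := B)
    (y0 := 3 * al) p
    (by
      intro i
      fin_cases i
      · have := ((hQP (-1) (by norm_num) (by norm_num)).mul
          (hQP 0 (by norm_num) (by norm_num))).mul (hQP 1 (by norm_num) (by norm_num))
        simpa [hp] using this
      · exact hpow 0 (by norm_num) (by norm_num)
      · exact hpow 1 (by norm_num) (by norm_num)
      · exact hpow (-1) (by norm_num) (by norm_num))
    (by
      intro i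
      fin_cases i
      · have := ((Cls_th (k := k) (N := N) (Bp := B + al * N) (al := al) (e := -1)).mul
          (Cls_th (k := k) (N := N) (Bp := B + al * N) (al := al) (e := 0))).mul
          (Cls_th (k := k) (N := N) (Bp := B + al * N) (al := al) (e := 1))
        exact this.congr ⟨0, by ring⟩
      · exact hcl 0
      · exact hcl 1
      · exact hcl (-1))
    (by
      change PowerSeries.constantCoeff (th N (B + al * N) al (-1) * th N (B + al * N) al 0 *
        th N (B + al * N) al 1 : RR k) = _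
      rw [map_mul, map_mul, hc0, hc0, hc0, ← T_add, ← T_add]
      congr 1
      ring)
    (by
      change PowerSeries.constantCoeff (th N (B + al * N) al 0 ^ 3 : RR k) = _
      rw [map_pow, hc0, T_pow]
      congr 1
      push_cast
      ring)
    (by
      change PowerSeries.constantCoeff (th N (B + al * N) al 1 ^ 3 : RR k) = _
      rw [map_pow, hc0, T_pow]
      congr 1
      push_cast
      ring)
    (by
      change PowerSeries.constantCoeff (th N (B + al * N) al (-1) ^ 3 : RR k) = _
      rw [map_pow, hc0, T_pow]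
      congr 1
      push_cast
      ring)
  refine ⟨τ0, τ1, τ2, hτ0, hτ1, hτ2, ?_, hrel⟩
  rintro ⟨rfl, rfl⟩
  have hrel' : (th N (B + al * N) al (-1) * th N (B + al * N) al 0 * th N (B + al * N) al 1 : RR k)
      = emb τ0 * th N (B + al * N) al 0 ^ 3 := by
    have := hrel
    simp only [map_zero, zero_mul, add_zero] at this
    exact this
  have hu : IsUnit (th N (B + al * N) al 0 : RR k) := isUnit_th
  have hcancel : (th N (B + al * N) al (-1) * th N (B + al * N) al 1 : RR k) =
      emb τ0 * (th N (B + al * N) al 0 * th N (B + al * N) al 0) := by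
    apply hu.mul_left_cancel
    linear_combination hrel'
  exact mul_ne (k := k) (B' := B + al * N) hN (fun e l => Qf N (B + al * N) e l)
    (fun e l => by rw [two_Qf]; ring)
    (fun e => th N (B + al * N) al e)
    (fun e l he1 he2 => coef_th_pos h1 h2 he1 he2 l)
    (fun e x s _ _ h => coef_th_ne h) τ0 hcancel

/-- The same, in the form required by `AsmFinal.core_aux`. -/
theorem cubic' {N B al : ℤ} (h1 : N < B + al * N) (h2 : B + al * N < 2 * N) :
    ∃ t0 t1 t2 : PowerSeries k,
      (th N (B + al * N) al (-1) : RR k) * th N (B + al * N) al 0 * th N (B + al * N) al 1 =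
        algebraMap (PowerSeries k) (RR k) t0 * (th N (B + al * N) al 0) ^ 3
          + algebraMap (PowerSeries k) (RR k) t1 * (th N (B + al * N) al 1) ^ 3
          + algebraMap (PowerSeries k) (RR k) t2 * (th N (B + al * N) al (-1)) ^ 3
      ∧ PowerSeries.coeff 0 t0 = 1 ∧ PowerSeries.coeff 0 t1 = 0 ∧ PowerSeries.coeff 0 t2 = 0
      ∧ (t1 ≠ 0 ∨ t2 ≠ 0) := by
  obtain ⟨τ0, τ1, τ2, h0, h1', h2', hne, hrel⟩ := cubic (k := k) h1 h2
  refine ⟨τ0, τ1, τ2, hrel, ?_, ?_, ?_, ?_⟩
  · rw [PowerSeries.coeff_zero_eq_constantCoeff_apply]; exact h0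
  · rw [PowerSeries.coeff_zero_eq_constantCoeff_apply]; exact h1'
  · rw [PowerSeries.coeff_zero_eq_constantCoeff_apply]; exact h2'
  · by_contra hcon
    push Not at hcon
    exact hne hcon

end Crest.Agent.R259.Cubic
end

-- ▼ part R259/Kernel
section

/-!
R259 (Nagata): the kernel lemma for the plane cubic `g = XY - τ₀X³ - τ₁ - τ₂Y³` and the
`g`-adic expansion of a polynomial of total degree `≤ 3n`.
-/

set_option autoImplicit false

namespace Crest.Agent.R259.Kernel

open Polynomial

section Poly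

variable {O : Type*} [CommRing O] [IsDomain O]

omit [IsDomain O] in
theorem coeffs_zero {c3 c2 c1 c0 : O}
    (h : C c3 * X ^ 3 + C c2 * X ^ 2 + C c1 * X + C c0 = 0) :
    c3 = 0 ∧ c2 = 0 ∧ c1 = 0 ∧ c0 = 0 := by
  refine ⟨?_, ?_, ?_, ?_⟩
  · simpa [coeff_X, coeff_C, coeff_X_pow] using congrArg (fun p => p.coeff 3) h
  · simpa [coeff_X, coeff_C, coeff_X_pow] using congrArg (fun p => p.coeff 2) h
  · simpa [coeff_X, coeff_C, coeff_X_pow] using congrArg (fun p => p.coeff 1) h
  · simpa [coeff_X, coeff_C, coeff_X_pow] using congrArg (fun p => p.coeff 0) h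

/-- A root in `O[Y]` of the monic cubic `T³ - uY·T + u(τ₁ + τ₂Y³)` cannot exist. -/
theorem no_root {u τ1 τ2 : O} (hu : IsUnit u) (h2 : ¬ IsUnit τ2) (h12 : τ1 ≠ 0 ∨ τ2 ≠ 0)
    (ρ : O[X]) (h : ρ ^ 3 - C u * X * ρ + (C (u * τ1) + C (u * τ2) * X ^ 3) = 0) : False := by
  have hdeg : ρ.natDegree ≤ 1 := by
    have h3 : ρ ^ 3 = C u * X * ρ - (C (u * τ1) + C (u * τ2) * X ^ 3) := by
      linear_combination h
    have hl : (ρ ^ 3).natDegree = 3 * ρ.natDegree := by
      rw [natDegree_pow]
    have hr : (C u * X * ρ - (C (u * τ1) + C (u * τ2) * X ^ 3)).natDegree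
        ≤ max (1 + ρ.natDegree) 3 := by
      refine (natDegree_sub_le _ _).trans (max_le_max ?_ ?_)
      · refine natDegree_mul_le.trans ?_
        gcongr
        refine natDegree_mul_le.trans ?_
        simp
      · refine (natDegree_add_le _ _).trans ?_
        refine max_le ?_ ?_
        · exact (natDegree_C _).le.trans (by norm_num)
        · refine natDegree_mul_le.trans ?_
          rw [natDegree_C, natDegree_X_pow]
    rw [← h3, hl] at hr
    rcases le_max_iff.1 hr with h' | h' <;> omega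
  obtain ⟨a, b, rfl⟩ := exists_eq_X_add_C_of_natDegree_le_one hdeg
  have hexp : C (a ^ 3 + u * τ2) * X ^ 3 + C (3 * a ^ 2 * b - u * a) * X ^ 2
      + C (3 * a * b ^ 2 - u * b) * X + C (b ^ 3 + u * τ1) = 0 := by
    have h3 : (C (3 : O) : O[X]) = 3 := rfl
    rw [← h]
    simp only [C_add, C_sub, C_mul, C_pow, h3]
    ring
  obtain ⟨e3, e2, e1, e0⟩ := coeffs_zero hexp
  by_cases ha : a = 0
  · subst ha
    have hb : b = 0 := by
      have : u * b = 0 := by linear_combination -e1
      rcases mul_eq_zero.1 this with h' | h'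
      · exact absurd h' hu.ne_zero
      · exact h'
    subst hb
    have t2 : τ2 = 0 := by
      have : u * τ2 = 0 := by linear_combination e3
      rcases mul_eq_zero.1 this with h' | h'
      · exact absurd h' hu.ne_zero
      · exact h'
    have t1 : τ1 = 0 := by
      have : u * τ1 = 0 := by linear_combination e0
      rcases mul_eq_zero.1 this with h' | h'
      · exact absurd h' hu.ne_zero
      · exact h'
    rcases h12 with h' | h'
    · exact h' t1
    · exact h' t2
  · have hab : 3 * a * b = u := by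
      have : a * (3 * a * b - u) = 0 := by linear_combination e2
      rcases mul_eq_zero.1 this with h' | h'
      · exact absurd h' ha
      · linear_combination h'
    have hau : IsUnit a := by
      have : IsUnit (a * (3 * b)) := by
        have h' : a * (3 * b) = u := by linear_combination hab
        rw [h']; exact hu
      exact isUnit_of_mul_isUnit_left this
    apply h2
    have : u * τ2 = -a ^ 3 := by linear_combination e3
    have h' : IsUnit (u * τ2) := by
      rw [this]; exact (hau.pow 3).neg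
    exact isUnit_of_mul_isUnit_right h'

/-- the monic cubic `T³ - uY·T + u(τ₁ + τ₂Y³)` over `O[Y]`. -/
noncomputable def mcubic (u τ1 τ2 : O) : O[X][X] :=
  X ^ 3 - C (C u * X) * X + C (C (u * τ1) + C (u * τ2) * X ^ 3)

theorem mcubic_natDegree (u τ1 τ2 : O) : (mcubic u τ1 τ2).natDegree = 3 := by
  unfold mcubic
  compute_degree!

omit [IsDomain O] in
theorem mcubic_monic (u τ1 τ2 : O) : (mcubic u τ1 τ2).Monic := by
  unfold mcubic
  monicity!

theorem mcubic_irreducible {u τ1 τ2 : O} (hu : IsUnit u) (h2 : ¬ IsUnit τ2)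
    (h12 : τ1 ≠ 0 ∨ τ2 ≠ 0) : Irreducible (mcubic u τ1 τ2) := by
  rw [(mcubic_monic u τ1 τ2).irreducible_iff_roots_eq_zero_of_degree_le_three
    (by rw [mcubic_natDegree]; norm_num) (by rw [mcubic_natDegree])]
  rw [Multiset.eq_zero_iff_forall_notMem]
  intro ρ hρ
  have hr := isRoot_of_mem_roots hρ
  refine no_root hu h2 h12 ρ ?_
  have : eval ρ (mcubic u τ1 τ2) = 0 := hr
  rw [← this]
  simp [mcubic]

/-- Kernel lemma, polynomial form: `S` a domain over `O[Y]` (i.e. `y ∈ S` transcendental), `x ∈ S` a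
root of the monic cubic. Then `x` is not a root of any non-zero polynomial of degree `≤ 2`. -/
theorem kernel_poly [IsIntegrallyClosed O[X]] {S : Type*} [CommRing S] [IsDomain S]
    [Algebra O[X] S] (hinj : Function.Injective (algebraMap O[X] S))
    {u τ1 τ2 : O} (hu : IsUnit u) (h2 : ¬ IsUnit τ2) (h12 : τ1 ≠ 0 ∨ τ2 ≠ 0)
    {x : S} (hx : aeval x (mcubic u τ1 τ2) = 0) (A : O[X][X]) (hA : A.natDegree ≤ 2)
    (hA0 : aeval x A = 0) : A = 0 := by
  have : FaithfulSMul O[X] S := (faithfulSMul_iff_algebraMap_injective _ _).2 hinj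
  have : Module.IsTorsionFree O[X] S := inferInstance
  have hint : IsIntegral O[X] x := ⟨mcubic u τ1 τ2, mcubic_monic u τ1 τ2, hx⟩
  obtain ⟨q, hq⟩ := minpoly.isIntegrallyClosed_dvd hint hx
  have hirr := mcubic_irreducible hu h2 h12
  have hqu : IsUnit q := by
    rcases hirr.isUnit_or_isUnit hq with h' | h'
    · exact absurd h' (minpoly.not_isUnit _ _)
    · exact h'
  by_contra hne
  have hdvd := minpoly.isIntegrallyClosed_dvd hint hA0
  have h1 : mcubic u τ1 τ2 ∣ A := by
    rw [hq]
    exact (hqu.mul_right_dvd).2 hdvd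
  have := natDegree_le_of_dvd h1 hne
  rw [mcubic_natDegree] at this
  omega

end Poly

section Mv


variable {O : Type*} [CommRing O]










end Mv

end Crest.Agent.R259.Kernel
end

-- ▼ part R259/KernelH
section

/-!
R259 (Nagata): the kernel lemma in the three-polynomial form used by the assembly, and the
transcendence of a power series in `t` over Laurent polynomials whose constant term is `T (-2)`.
-/

set_option autoImplicit false

namespace Crest.Agent.R259.Kernel

open Polynomial

/-- Kernel lemma, three-polynomial form. -/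
theorem hker {O S : Type*} [CommRing O] [IsDomain O] [IsIntegrallyClosed O[X]] [CommRing S]
    [IsDomain S] [Algebra O S] {τ0 τ1 τ2 : O} (h0 : IsUnit τ0) (h2 : ¬ IsUnit τ2)
    (h12 : τ1 ≠ 0 ∨ τ2 ≠ 0) {x y : S} (hy : Transcendental O y)
    (hxy : x * y = algebraMap O S τ0 * x ^ 3 + algebraMap O S τ1 + algebraMap O S τ2 * y ^ 3)
    (p0 p1 p2 : O[X]) (h : aeval y p0 + x * aeval y p1 + x ^ 2 * aeval y p2 = 0) :
    p0 = 0 ∧ p1 = 0 ∧ p2 = 0 := by
  obtain ⟨u, hu⟩ := h0.exists_left_inv
  have huu : IsUnit u := IsUnit.of_mul_eq_one τ0 hu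
  let _ : Algebra O[X] S := (Polynomial.aeval y : O[X] →ₐ[O] S).toRingHom.toAlgebra
  have halg : algebraMap O[X] S = (Polynomial.aeval y : O[X] →ₐ[O] S).toRingHom := rfl
  have hinj : Function.Injective (algebraMap O[X] S) := by
    rw [halg]
    exact transcendental_iff_injective.1 hy
  have key := kernel_poly (S := S) hinj huu h2 h12 (x := x) ?_
    (C p2 * X ^ 2 + C p1 * X + C p0) ?_ ?_
  · have c0 := congrArg (fun q => q.coeff 0) key
    have c1 := congrArg (fun q => q.coeff 1) key
    have c2 := congrArg (fun q => q.coeff 2) key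
    simp [coeff_X, coeff_C, coeff_X_pow] at c0 c1 c2
    exact ⟨c0, c1, c2⟩
  · have hus : algebraMap O S u * algebraMap O S τ0 = 1 := by
      rw [← map_mul, hu, map_one]
    rw [Polynomial.aeval_def, halg]
    simp only [mcubic, Polynomial.eval₂_add, Polynomial.eval₂_sub, Polynomial.eval₂_mul,
      Polynomial.eval₂_X_pow, Polynomial.eval₂_C, Polynomial.eval₂_X]
    simp only [AlgHom.toRingHom_eq_coe, RingHom.coe_coe, map_add, map_mul, Polynomial.aeval_C,
      Polynomial.aeval_X, map_pow]
    linear_combination (-(algebraMap O S u)) * hxy - x ^ 3 * hus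
  · exact natDegree_quadratic_le
  · rw [Polynomial.aeval_def, halg]
    simp only [Polynomial.eval₂_add, Polynomial.eval₂_mul,
      Polynomial.eval₂_X_pow, Polynomial.eval₂_C, Polynomial.eval₂_X]
    simp only [AlgHom.toRingHom_eq_coe, RingHom.coe_coe]
    linear_combination h

section PS

variable {k : Type*} [Field k]

theorem coeff_aeval_T (p : k[X]) (n : ℕ) :
    (Polynomial.aeval (LaurentPolynomial.T (-2) : LaurentPolynomial k) p).coeff
      ((n : ℤ) * (-2)) = p.coeff n := by
  induction p using Polynomial.induction_on' with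
  | add p q hp hq =>
    rw [map_add, Polynomial.coeff_add, ← hp, ← hq]
    rfl
  | monomial m a =>
    rw [Polynomial.aeval_monomial, LaurentPolynomial.T_pow, Polynomial.coeff_monomial]
    have : (algebraMap k (LaurentPolynomial k)) a = LaurentPolynomial.C a := rfl
    rw [this, ← LaurentPolynomial.single_eq_C_mul_T, AddMonoidAlgebra.coeff_single,
      Finsupp.single_apply]
    by_cases h : m = n
    · subst h; simp
    · rw [if_neg h, if_neg]
      intro h'
      apply h
      omega

theorem transcendental_T : Transcendental k (LaurentPolynomial.T (-2) : LaurentPolynomial k) := by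
  rw [transcendental_iff]
  intro p hp
  ext n
  rw [← coeff_aeval_T p n, hp]
  simp

theorem X_dvd_coeff {y : PowerSeries (LaurentPolynomial k)}
    (hy : PowerSeries.constantCoeff y = LaurentPolynomial.T (-2)) (p : (PowerSeries k)[X])
    (hp : aeval y p = 0) : C (PowerSeries.X : PowerSeries k) ∣ p := by
  rw [Polynomial.C_dvd_iff_dvd_coeff]
  have h1 : aeval (LaurentPolynomial.T (-2) : LaurentPolynomial k)
      (p.map (PowerSeries.constantCoeff (R := k))) = 0 := by
    have h2 := congrArg (PowerSeries.constantCoeff (R := LaurentPolynomial k)) hp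
    rw [map_zero, Polynomial.aeval_def, Polynomial.hom_eval₂, hy] at h2
    rw [Polynomial.aeval_def, Polynomial.eval₂_map, ← h2]
    congr 1
  have h3 := transcendental_iff.1 transcendental_T _ h1
  intro n
  rw [PowerSeries.X_dvd_iff]
  have := congrArg (fun q => q.coeff n) h3
  simpa using this

theorem algebraMap_X_ne_zero :
    algebraMap (PowerSeries k) (PowerSeries (LaurentPolynomial k)) PowerSeries.X ≠ 0 := by
  have h1 : algebraMap (PowerSeries k) (PowerSeries (LaurentPolynomial k))
      = PowerSeries.map (algebraMap k (LaurentPolynomial k)) := rfl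
  rw [h1, PowerSeries.map_X]
  exact PowerSeries.X_ne_zero

/-- If the constant term (in `t`) of `y` is `T (-2)` then `y` is transcendental over `k[[t]]`. -/
theorem transcendental_of_constCoeff {y : PowerSeries (LaurentPolynomial k)}
    (hy : PowerSeries.constantCoeff y = LaurentPolynomial.T (-2)) :
    Transcendental (PowerSeries k) y := by
  rw [transcendental_iff]
  have key : ∀ (e : ℕ) (p : (PowerSeries k)[X]), aeval y p = 0 →
      ∀ n, (PowerSeries.X : PowerSeries k) ^ e ∣ p.coeff n := by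
    intro e
    induction e with
    | zero => intro p _ n; simp
    | succ e ih =>
      intro p hp n
      obtain ⟨q, rfl⟩ := X_dvd_coeff hy p hp
      rw [map_mul, Polynomial.aeval_C] at hp
      have hq : aeval y q = 0 := by
        rcases mul_eq_zero.1 hp with h | h
        · exact absurd h algebraMap_X_ne_zero
        · exact h
      rw [Polynomial.coeff_C_mul, pow_succ']
      exact mul_dvd_mul_left _ (ih q hq n)
  intro p hp
  ext n m
  have := PowerSeries.X_pow_dvd_iff.1 (key (m + 1) p hp n) m (Nat.lt_succ_self m)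
  simpa using this

/-- Kernel lemma for `O = k[[t]]`, `S = k[z,1/z][[t]]`: exactly the hypothesis `hker` of the
assembly. -/
theorem hker_ps {τ0 τ1 τ2 : PowerSeries k} (h0 : PowerSeries.constantCoeff τ0 ≠ 0)
    (h2 : PowerSeries.constantCoeff τ2 = 0) (h12 : τ1 ≠ 0 ∨ τ2 ≠ 0)
    {x y : PowerSeries (LaurentPolynomial k)}
    (hy : PowerSeries.constantCoeff y = LaurentPolynomial.T (-2))
    (hxy : x * y = algebraMap (PowerSeries k) (PowerSeries (LaurentPolynomial k)) τ0 * x ^ 3
      + algebraMap (PowerSeries k) (PowerSeries (LaurentPolynomial k)) τ1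
      + algebraMap (PowerSeries k) (PowerSeries (LaurentPolynomial k)) τ2 * y ^ 3)
    (p0 p1 p2 : (PowerSeries k)[X])
    (h : aeval y p0 + x * aeval y p1 + x ^ 2 * aeval y p2 = 0) :
    p0 = 0 ∧ p1 = 0 ∧ p2 = 0 := by
  refine hker ?_ ?_ h12 (transcendental_of_constCoeff hy) hxy p0 p1 p2 h
  · rw [PowerSeries.isUnit_iff_constantCoeff]
    exact isUnit_iff_ne_zero.2 h0
  · rw [PowerSeries.isUnit_iff_constantCoeff, h2]
    exact not_isUnit_zero

end PS

end Crest.Agent.R259.Kernel
end

-- ▼ part R259/Main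

/-!
R259 (Nagata): the core theorem over `ℚ`.
-/

set_option autoImplicit false

open Polynomial Crest.AlgGeometry

namespace Crest.Agent.R259.Main

/-- the points `z_j = j + 1`. -/
noncomputable def zpt {r : ℕ} (j : Fin r) : ℚˣ :=
  Units.mk0 ((j : ℕ) + 1 : ℚ) (by positivity)

theorem zpt_injective {r : ℕ} : Function.Injective (zpt (r := r)) := by
  intro a b hab
  have h : ((a : ℕ) + 1 : ℚ) = (b : ℕ) + 1 := by
    have := congrArg (fun u : ℚˣ => (u : ℚ)) hab
    simpa [zpt] using this
  have h' : (a : ℕ) = (b : ℕ) := by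
    have h2 : ((a : ℕ) : ℚ) = ((b : ℕ) : ℚ) := by linarith
    exact_mod_cast h2
  exact Fin.ext h'

theorem core (r n m : ℕ) (hr : 10 ≤ r) (hn : 1 ≤ n) (hm : 1 ≤ m) (h : 9 * n ^ 2 ≤ r * m ^ 2) :
    ∃ (L : Type) (_ : Field L) (p : Fin r → Fin 2 → L),
      ∀ F : MvPolynomial (Fin 2) L, F.totalDegree ≤ 3 * n →
        (∀ i, VanishesToOrder F (p i) m) → F = 0 := by
  obtain ⟨p, hp⟩ := Asm.core_aux (k := ℚ)
    (fun {N B al} h1 h2 => Cubic.cubic' h1 h2)
    (fun t0 t1 t2 x y ht0 _ ht2 hne hxy hy p0 p1 p2 h0 => by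
      rw [PowerSeries.coeff_zero_eq_constantCoeff_apply] at ht0 ht2 hy
      exact Kernel.hker_ps (by rw [ht0]; exact one_ne_zero) ht2 hne hy hxy p0 p1 p2 h0)
    hr hn hm h zpt zpt_injective
  exact Asm.core_of_domain p hp

end Crest.Agent.R259.Main
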